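import Vale.Agent.P287D.Fm.St2
import Vale.Agent.P287D.D2.Tf

/-!
# P287D, block FM: the generic fibre of a del Pezzo fibration
-/

open Set

noncomputable section

namespace Vale.Agent.P287D.Fm

open Hd Dp Sf

/-- **BA** -/
theorem ba (ax : Ax) : BA := by
  intro K _ _ hK Λ B Γ m hd K' _ _ φ hφ
  obtain ⟨H, g, c⟩ := D2.exists_cx ax hK m.smp hd hφ
  have p : ∀ x : ℝ, x • dv g ∈ Prn K' := fun x => Submodule.smul_mem _ _ (dv_mem_Prn g)
  refine ⟨g, ⟨c.md m.des m.term, c.gf, c.gf.ff, ?_⟩, fun β hβ t i => ?_, fun P o => ?_⟩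
  · obtain ⟨x, a⟩ := m.neg
    refine (c.gf.ok.ampOn a).congr ?_
    rw [pb_sub, pb_smul, show -(pb φ Γ - dv g) - (x • pb φ B - pb φ Γ) = dv g - x • pb φ B by abel]
    exact sub_mem (dv_mem_Prn g) (Submodule.smul_mem _ _ c.pb_prn)
  · obtain ⟨γ, a, rfl⟩ := ax.inv_desc hK c.gf m.des m.smp m.term.big m.qf hβ t i
    obtain ⟨x, e⟩ := pic_split (Module.finite_of_finrank_pos (m.rk.symm ▸ Nat.succ_pos _ :
      0 < rho Λ)) m.smp m.des m.rk m.term.hull.1 (mfs_not m) a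
    refine ⟨x, .of_prn ?_⟩
    rw [show pb φ γ - x • (pb φ Γ - dv g) = pb φ (γ - x • Γ) + x • dv g by
      rw [pb_sub, pb_smul]; module]
    exact add_mem (pb_prn c.gf.ff c.gf.toExt m.smp le_rfl e) (p x)
  · obtain ⟨Q, l⟩ := c.lies P
    exact ⟨Q, ⟨(c.on m.des l).1 o, c.hor l⟩, l⟩

end Vale.Agent.P287D.Fm
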