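import Vale.Agent.P287D.Fm.St2
import Vale.Agent.P287D.D2.Tf
import Vale.Agent.P287D.Va.Alg

/-!
# P287D, block FM: the generic fibre of a conic bundle with a hidden quartic (BB)
-/

set_option linter.all false

open Set
open scoped IntermediateField

noncomputable section

namespace Vale.Agent.P287D.Fm

open Hd Dp Sf

namespace Bb

variable {K K' : Type} [Field K] [Algebra ℂ K] [Field K'] [Algebra ℂ K'] {n : ℕ}

/-- a place which is trivial on `E` is trivial on its algebraic closure -/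
theorem mem_of_alg {E : IntermediateField ℂ K} {P : Pl K} (h : Hor E P) {x : K}
    (hx : IsAlgebraic E x) : x ∈ P.ring := by
  let _ : Algebra E P.ring := ((algebraMap E K).codRestrict P.ring fun a => h a a.2).toAlgebra
  have : IsScalarTower E P.ring K := .of_algebraMap_eq fun _ => rfl
  obtain ⟨y, rfl⟩ := IsIntegrallyClosed.isIntegral_iff.1 (hx.isIntegral.tower_top (A := P.ring))
  exact y.2

/-- the horizontal places of a curve fibration are primes of the model -/
theorem on_hor (ax : Ax) (hK : FF K (n + 1)) {Λ B : BD K} (s : Smp B) (d : Dsc Λ B)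
    (e : dim B = n) {Q : Pl K} (h : Hor (fld B) Q) : On n Λ Q := by
  have hL : FF (fld B) n := e ▸ ax.fld.ff _ K hK B
  obtain ⟨F, _, _, ψ, g⟩ := ax.g1 K (fld B) (cld_fld B) ⟨n, hL⟩
  have g' : GFd n 1 (fld B) ψ := ⟨g, hK, hL⟩
  obtain ⟨P, l⟩ := (ax.g2 n 1 K F _ ψ g').2.2.1 Q h
  obtain ⟨H, a, b, c⟩ := ax.fld.down _ K hK B s
  exact (((ax.g6 n 1 K F _ ψ g' H a b).2.2.2 Λ d.smp
    (d.congr (by simpa using neg_mem c))).2.2 0 P Q rfl l).1 (zero_lt_one (α := ℝ))

/-- an effective numerically trivial class vanishes -/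
theorem zero_of_num (ax : Ax) (hK : FF K 2) {X N : BD K} (s : Smp X) (b : Big X) (h : Num N)
    (p : 0 ≤ N) : N = 0 := by
  have R := ax.rows K hK
  refine ax.uq hK s b h.car (zero_mem _) (fun P _ => ax.num_dg hK h P) (fun P _ => R.zero P)
    fun P o => le_antisymm ?_ (p P)
  have := R.le_I2 (R.isb _ h.car) s.car (fun P => mul_nonneg (p P) ((R.nn_smp s).nn P)) P
  rw [ax.num_l hK h s.car] at this
  exact nonpos_of_mul_nonpos_left this (on_iff.1 o)

end Bb

open Bb

theorem bb (ax : Ax) : BB := by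
  intro K _ _ hK Λ B Γ m hd L le hL K' _ _ φ X k f e g C
  have g' : GFd 2 2 L φ := ⟨g, hK, hL⟩
  have h' := g'.ff
  have R := ax.rows K' h'
  have t := C.term
  have kc := ax.kC h' t
  have fc := CarZ.car C.car
  have st : ∀ σ ∈ Gal φ, ∀ P Q, Lies (σ : K' →+* K') P Q → (On 1 X P ↔ On 1 X Q) :=
    fun σ hσ P Q l => by
      have s := g.semi hσ
      rw [(ax.neg.iso 1 K' h' X _ t.smp (s.smp.2 t.smp) (C.inv σ hσ)).2.2.1, s.lies_iff.1 l,
        on_iff, on_iff, ax.dg_pb h' s t.smp.car Q]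
  obtain ⟨u, u0, hu⟩ := ax.g4 2 2 K K' L φ g'
  have c : k + dv u⁻¹ ∈ Car K' := add_mem kc (dv_mem_Car _)
  have d : Det X (k + dv u⁻¹) :=
    R.det_add (ax.kD h' t) (fun P _ => R.prn _ (dv_mem_Prn _) P) kc (dv_mem_Car _)
  have v : ∀ P, On 1 X P → (k + dv u⁻¹) P = pb φ (cn K 4) P := fun P o => by
    rw [Pi.add_apply, t.hull.2 P o, hu, dv_inv]
    exact add_neg_cancel_right _ _
  have z : Dz L φ X k := by
    refine ⟨⟨t, st, u⁻¹, inv_ne_zero u0, fun σ hσ => ?_⟩, g', h', C.amp⟩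
    have s := g.semi hσ
    refine ax.uq h' t.smp t.big (s.car.2 c) c ((ax.det_iff h' t.smp).2 fun P o => ?_) d
      fun P o => ?_
    · obtain ⟨Q, rfl⟩ := s.pl.surjective P
      rw [ax.dg_pb h' s c]
      exact (ax.det_iff h' t.smp).1 d Q fun q => o ((st σ hσ _ _ (s.lies Q)).2 q)
    · obtain ⟨Q, rfl⟩ := s.pl.surjective P
      rw [s.pb_pl, v Q ((st σ hσ _ _ (s.lies Q)).1 o), v _ o, ← s.pb_pl (pb φ _) Q,
        inv_pb g _ σ hσ]
  refine ⟨z, fun σ hσ => ?_, fun y hy P p => ?_⟩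
  · have s := g.semi hσ
    obtain ⟨a, ha, ha'⟩ := SetLike.not_le_iff_exists.1 fun w : fld B ≤ L => by
      have := (Lk.ff_le w (hd ▸ ax.fld.ff 4 K hK B) hL).1
      omega
    have nc := pld_car (φ a)
    have nn := R.nn_smp (smp_pld (φ a))
    have f' := s.car.2 fc
    have x1 : I2 (pld (φ a)) f = 0 := by
      obtain ⟨ε, e0, w⟩ := (mem_fld C.smp.eff).1 (C.base a ha)
      have x := R.eff_nn w (R.isb _ (sub_mem fc ((Car K').smul_mem ε nc))) (R.nn_smp C.smp)
      have y := R.eff_nn (smp_pld (φ a)).eff (R.isb _ nc) (R.nn_smp C.smp)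
      rw [R.sub_l (R.isb _ fc) (R.isb _ ((Car K').smul_mem ε nc)) fc, C.sq,
        R.smul_l ε (R.isb _ nc) fc] at x
      nlinarith
    have x2 : I2 (pld (φ a)) (pb (σ : K' →+* K') f) = 0 := by
      rw [← x1, ← ax.I2_pb h' s _ fc, s.ok.pb_pld]
      exact congrArg (fun w => I2 (pld w) _) (hσ a).symm
    have x3 : I2 (pb (σ : K' →+* K') f) (pb (σ : K' →+* K') f) = 0 := by
      rw [ax.I2_pb h' s _ fc, C.sq]
    have x4 : I2 k (pb (σ : K' →+* K') f) = -2 := by
      rw [← R.congr_l (R.isb _ kc) (ax.pb_k h' g z.toMd hσ) f', ax.I2_pb h' s _ fc, C.kf]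
    have x5 : I2 (pb (σ : K' →+* K') f) f ≤ 0 := by
      refine not_lt.1 fun w => D2.nc_map g.toExt ha' _ (const_of_sec h' ?_).choose_spec.symm
      have S := add_mem f' fc
      refine zero_of_num ax h' t.smp t.big (ax.num_of h' S nc ?_ ?_
        (R.eff_nn (smp_pld _).eff (R.isb _ nc) nn)) (pld_nonneg _) ▸ sec_pld (φ a)
      · rw [R.add_l (R.isb _ f') (R.isb _ fc) S, R.add_r (R.isb _ f') f' fc,
          R.add_r (R.isb _ fc) f' fc, x3, C.sq, R.symm f fc _ f']
        linarith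
      · rw [R.symm _ S _ nc, R.add_r (R.isb _ nc) f' fc, x1, x2, add_zero]
    have S := sub_mem f' fc
    refine ax.num_of h' kc S (by rw [C.deg]; norm_num) ?_ ?_
    · rw [R.sub_r (R.isb _ kc) f' fc, x4, C.kf, sub_self]
    · rw [R.sub_l (R.isb _ f') (R.isb _ fc) S, R.sub_r (R.isb _ f') f' fc,
        R.sub_r (R.isb _ fc) f' fc, x3, C.sq, R.symm f fc _ f']
      linarith
  · classical
    obtain ⟨Q, l⟩ := (ax.g2 2 2 K K' L φ g').1 P
    have w : Hor (fld B) Q := fun a ha => by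
      have b := C.base a ha
      rw [← fld_congr hy, ← mx_pld, mem_fld_mx h'] at b
      refine (l a).2 (mem_of_alg (fun x hx => p x (IntermediateField.adjoin_le_iff.2 ?_ hx)) b)
      have o : ∀ x ∈ ({1, y} : Finset K'), x ∈ ℂ⟮y⟯ := fun x hx => by
        rcases Finset.mem_insert.1 hx with rfl | hx
        · exact one_mem _
        · exact Finset.mem_singleton.1 hx ▸ IntermediateField.mem_adjoin_simple_self ℂ y
      rintro _ ⟨x, hx, x', hx', rfl⟩
      exact div_mem (o x hx) (o x' hx')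
    exact ⟨Q, ⟨on_hor ax hK m.smp m.des hd w, w⟩, l⟩

end Vale.Agent.P287D.Fm
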