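import Vale.Agent.P287D.Fm.St2
import Vale.Agent.P287D.Dp.Ns

/-!
# P287D, block FM: the five conic classes of a conic bundle of degree five (BC)
-/

set_option linter.all false

open Set Equiv

noncomputable section

namespace Vale.Agent.P287D.Fm

open Hd Dp Sf

namespace Bc

/-- the five classes -/
def cc {V : Type} [AddCommGroup V] (f s : V) (e : Fin 3 → V) : Fin 5 → V :=
  ![f + f + s - (e 0 + e 1 + e 2), f + s - e 0, f + s - e 1, f + s - e 2, f]

section lat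

variable {G V : Type} [Group G] [AddCommGroup V] [DistribMulAction G V] {Λ : Lat G V} {k f s : V}
  {e : Fin 3 → V}

variable (Λ k f s e) in
/-- a standard basis -/
structure Std : Prop where
  kk : Λ.B k k = 5
  ff : Λ.B f f = 0
  kf : Λ.B k f = 2
  fs : Λ.B f s = 1
  ss : Λ.B s s = -1
  ks : Λ.B k s = 1
  ee : ∀ i j, Λ.B (e i) (e j) = if i = j then -1 else 0
  ke : ∀ i, Λ.B k (e i) = 1
  fe : ∀ i, Λ.B f (e i) = 0
  se : ∀ i, Λ.B s (e i) = 0

namespace Std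

variable (h : Std Λ k f s e)
include h

theorem cB (i j : Fin 5) : Λ.B (cc f s e i) (cc f s e j) = if i = j then 0 else 1 := by
  have a1 := (Λ.symm s f).trans h.fs
  have a2 := fun i => (Λ.symm (e i) f).trans (h.fe i)
  have a3 := fun i => (Λ.symm (e i) s).trans (h.se i)
  fin_cases i <;> fin_cases j <;> simp [cc, h.ff, h.fs, h.ss, h.ee, h.fe, h.se, a1, a2, a3]

theorem kc (i : Fin 5) : Λ.B k (cc f s e i) = 2 := by
  fin_cases i <;> simp [cc, h.kf, h.ks, h.ke]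

theorem k_eq : k = cc f s e 0 + f + s := by
  have a1 := (Λ.symm s f).trans h.fs
  have a2 := fun i => (Λ.symm (e i) f).trans (h.fe i)
  have a3 := fun i => (Λ.symm (e i) s).trans (h.se i)
  have a4 := (Λ.symm f k).trans h.kf
  have a5 := (Λ.symm s k).trans h.ks
  have a6 := fun i => (Λ.symm (e i) k).trans (h.ke i)
  refine sub_eq_zero.1 (Lat.zero_of (Λ := Λ) (k := k) (by rw [h.kk]; decide) ?_ ?_) <;>
    simp [cc, h.kk, h.kf, h.ks, h.ke, h.ff, h.fs, h.ss, h.ee, h.fe, h.se, a1, a2, a3, a4, a5, a6]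

theorem sum : ∑ i, cc f s e i = k + k := by
  rw [h.k_eq, Fin.sum_univ_five]
  simp only [cc, Matrix.cons_val]
  abel

theorem line (i : Fin 3) : e i = k - cc f s e 0 - cc f s e i.castSucc.succ := by
  rw [h.k_eq]
  fin_cases i <;> simp [cc] <;> abel

theorem pair (a b : Fin 5) (n : a ≠ b) (ha : a ≠ 4) (hb : b ≠ 4) : ∃ i,
    k - cc f s e a - cc f s e b = e i ∨ k - cc f s e a - cc f s e b = f - e i := by
  rw [h.k_eq]
  fin_cases a <;> fin_cases b <;> first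
    | exact absurd rfl n
    | exact absurd rfl ha
    | exact absurd rfl hb
    | (refine ⟨0, .inl ?_⟩; simp [cc]; done)
    | (refine ⟨1, .inl ?_⟩; simp [cc]; done)
    | (refine ⟨2, .inl ?_⟩; simp [cc]; done)
    | (refine ⟨0, .inl ?_⟩; simp only [cc, Matrix.cons_val]; simp; abel1)
    | (refine ⟨1, .inl ?_⟩; simp only [cc, Matrix.cons_val]; simp; abel1)
    | (refine ⟨2, .inl ?_⟩; simp only [cc, Matrix.cons_val]; simp; abel1)
    | (refine ⟨0, .inr ?_⟩; simp only [cc, Matrix.cons_val]; simp; abel1)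
    | (refine ⟨1, .inr ?_⟩; simp only [cc, Matrix.cons_val]; simp; abel1)
    | (refine ⟨2, .inr ?_⟩; simp only [cc, Matrix.cons_val]; simp; abel1)

variable {π : G →* Perm (Fin 5)} (hp : ∀ σ i, σ • cc f s e i = cc f s e (π σ i))
  (hk : ∀ σ : G, σ • k = k) (hf : ∀ σ : G, σ • f = f)
include hp hk hf

theorem fix {σ : G} (o : π σ = 1) (i : Fin 3) : σ • e i = e i := by
  rw [h.line, smul_sub, smul_sub, hp, hp, hk, o]
  rfl

theorem four (σ : G) : π σ 4 = 4 := by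
  have a := h.cB (π σ 4) 4
  rw [← hp, show σ • cc f s e 4 = cc f s e 4 from hf σ, h.cB, if_pos rfl] at a
  by_contra n
  simp [n] at a

theorem swp (w : ∀ i, ∃ σ : G, σ • e i = f - e i) (ρ : Perm (Fin 5)) (r : ρ 4 = 4) :
    ∃ σ, (π σ (ρ 0) = ρ 2 ∧ π σ (ρ 1) = ρ 3) ∨ (π σ (ρ 0) = ρ 3 ∧ π σ (ρ 1) = ρ 2) := by
  have n : ∀ i j, i ≠ j → ρ i ≠ ρ j := fun i j => ρ.injective.ne
  obtain ⟨i, a⟩ := h.pair (ρ 0) (ρ 1) (n _ _ (by decide)) (r ▸ n _ _ (by decide))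
    (r ▸ n _ _ (by decide))
  obtain ⟨σ, b⟩ := w i
  have c : σ • (k - cc f s e (ρ 0) - cc f s e (ρ 1)) =
      f - (k - cc f s e (ρ 0) - cc f s e (ρ 1)) := by
    rcases a with a | a
    · rw [a, b]
    · rw [a, smul_sub, hf, b]
  have t := (Equiv.sum_comp ρ (cc f s e)).trans h.sum
  rw [Fin.sum_univ_five, r] at t
  rw [smul_sub, smul_sub, hk, hp, hp] at c
  have u : cc f s e (π σ (ρ 0)) + cc f s e (π σ (ρ 1)) = cc f s e (ρ 2) + cc f s e (ρ 3) := by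
    have t' : cc f s e 4 = f := rfl
    rw [t'] at t
    linear_combination (norm := abel1) -c - t
  have u2 := congrArg (Λ.B (cc f s e (ρ 2))) u
  have u3 := congrArg (Λ.B (cc f s e (ρ 3))) u
  have n1 := n 2 3 (by decide)
  simp only [map_add, h.cB, if_true, if_neg n1, if_neg n1.symm] at u2 u3
  refine ⟨σ, ?_⟩
  by_cases p : ρ 2 = π σ (ρ 0)
  · refine .inl ⟨p.symm, by_contra fun q => ?_⟩
    rw [if_neg (p ▸ n1.symm), if_neg (Ne.symm q)] at u3
    omega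
  · have q : ρ 2 = π σ (ρ 1) := by
      by_contra q
      rw [if_neg p, if_neg q] at u2
      omega
    refine .inr ⟨by_contra fun z => ?_, q.symm⟩
    rw [if_neg (Ne.symm z), if_neg (q ▸ n1.symm)] at u3
    omega

end Std

end lat

variable {K' : Type} [Field K'] [Algebra ℂ K'] {f s : BD K'} {e : Fin 3 → BD K'}

theorem cc_mem {p : BD K' → Prop} (ha : ∀ a b, p a → p b → p (a + b))
    (hs : ∀ a b, p a → p b → p (a - b)) (h1 : p f) (h2 : p s) (h3 : ∀ i, p (e i)) (i : Fin 5) :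
    p (cc f s e i) := by
  fin_cases i
  exacts [hs _ _ (ha _ _ (ha _ _ h1 h1) h2) (ha _ _ (ha _ _ (h3 0) (h3 1)) (h3 2)),
    hs _ _ (ha _ _ h1 h2) (h3 0), hs _ _ (ha _ _ h1 h2) (h3 1), hs _ _ (ha _ _ h1 h2) (h3 2), h1]

theorem ns_cc (h1 : f ∈ CarZ K') (h2 : s ∈ CarZ K') (h3 : ∀ i, e i ∈ CarZ K') (i : Fin 5) :
    ns (cc f s e i) = cc (ns f) (ns s) (fun i => ns (e i)) i := by
  have a := fun i => (ns_sub (add_mem h1 h2) (h3 i)).trans (by rw [ns_add h1 h2])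
  fin_cases i
  · exact (ns_sub (add_mem (add_mem h1 h1) h2) (add_mem (add_mem (h3 0) (h3 1)) (h3 2))).trans (by
      rw [ns_add (add_mem h1 h1) h2, ns_add h1 h1, ns_add (add_mem (h3 0) (h3 1)) (h3 2),
        ns_add (h3 0) (h3 1)]
      rfl)
  exacts [a 0, a 1, a 2, rfl]

end Bc

open Bc

theorem bc (ax : Ax) : BC := by
  intro K K' _ _ _ _ L φ X k z L₃ f e C hf
  obtain ⟨s, sZ, sD, s1, s2, s3⟩ := C.sec
  have hK := z.ff
  have g := z.gf.toGF
  have R := ax.rows K' hK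
  have kZ := ax.kZ hK z.term
  have fZ := C.car
  have eZ := fun i => (C.ecar i).1
  have dt := fun {β} (d : Dsc X β) => (ax.det_of hK z.term d).2
  let Λ := ax.lat hK g
  have lk : ∀ {β}, β ∈ CarZ K' → ∀ {a : ℤ}, I2 k β = -a → Λ.B (ns (-k)) (ns β) = a :=
    fun b a h => Int.cast_injective (α := ℝ) (by rw [ax.lat_neg hK g kZ b, h, neg_neg])
  have kk : Λ.B (ns (-k)) (ns (-k)) = 5 :=
    Int.cast_injective (α := ℝ) (by rw [ax.lat_kk hK g kZ, C.deg]; norm_num)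
  have ff : Λ.B (ns f) (ns f) = 0 := (ax.lat_eq hK g fZ fZ).2 (by simpa using C.sq)
  have kf : Λ.B (ns (-k)) (ns f) = 2 := lk fZ (by simpa using C.kf)
  have fs : Λ.B (ns f) (ns s) = 1 := (ax.lat_eq hK g fZ sZ).2 (by simpa using s1)
  have ss : Λ.B (ns s) (ns s) = -1 := (ax.lat_eq hK g sZ sZ).2 (by simpa using s2)
  have ks : Λ.B (ns (-k)) (ns s) = 1 := lk sZ (by simpa using s3)
  have ee : ∀ i j, Λ.B (ns (e i)) (ns (e j)) = if i = j then -1 else 0 := fun i j =>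
    (ax.lat_eq hK g (eZ i) (eZ j)).2 (by rw [C.ee]; split_ifs <;> simp)
  have ke : ∀ i, Λ.B (ns (-k)) (ns (e i)) = 1 := fun i => lk (eZ i) (by simpa using C.ke i)
  have fe : ∀ i, Λ.B (ns f) (ns (e i)) = 0 := fun i =>
    (ax.lat_eq hK g fZ (eZ i)).2 (by simpa using C.fe i)
  have ef := fun i => (Λ.symm _ _).trans (fe i)
  have sf := (Λ.symm _ _).trans fs
  have o : ∀ i, ∃ e₁, (e₁ = e i ∨ e₁ = f - e i) ∧ Λ.B (ns s) (ns e₁) = 0 := fun i => by
    have a := Lat.Ln.le (Λ := Λ) (kk ▸ by decide) ⟨ss, ks⟩ ⟨(ee i i).trans (if_pos rfl), ke i⟩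
    have b := Lat.Ln.le (Λ := Λ) (f := ns f - ns (e i)) (kk ▸ by decide) ⟨ss, ks⟩
      ⟨by simp [ff, fe, ef, ee], by simp [kf, ke]⟩
    rw [map_sub, sf] at b
    by_cases c : Λ.B (ns s) (ns (e i)) = 0
    · exact ⟨_, .inl rfl, c⟩
    · exact ⟨_, .inr rfl, by rw [ns_sub fZ (eZ i), map_sub, sf]; omega⟩
  choose e₁ o1 o2 using o
  have n1 : ∀ i, ns (e₁ i) = ns (e i) ∨ ns (e₁ i) = ns f - ns (e i) := fun i =>
    (o1 i).imp (congrArg ns) fun a => (congrArg ns a).trans (ns_sub fZ (eZ i))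
  have z1 : ∀ i, e₁ i ∈ CarZ K' ∧ Det X (e₁ i) := fun i => by
    rcases o1 i with a | a <;> rw [a]
    · exact ⟨eZ i, dt (C.ecar i).2⟩
    · exact ⟨sub_mem fZ (eZ i), R.det_sub (dt C.des) (dt (C.ecar i).2) (CarZ.car fZ)
        (CarZ.car (eZ i))⟩
  have h : Std Λ (ns (-k)) (ns f) (ns s) fun i => ns (e₁ i) := by
    refine ⟨kk, ff, kf, fs, ss, ks, fun i j => ?_, fun i => ?_, fun i => ?_, o2⟩
    · by_cases c : i = j
      · subst c
        rcases n1 i with a | a <;> simp [a, ff, fe, ef, ee]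
      · rcases n1 i with a | a <;> rcases n1 j with b | b <;> simp [a, b, c, ff, fe, ef, ee]
    · rcases n1 i with a | a <;> simp [a, kf, ke]
    · rcases n1 i with a | a <;> simp [a, ff, fe]
  have m := cc_mem (p := fun β => β ∈ CarZ K' ∧ Det X β)
    (fun a b u v => ⟨add_mem u.1 v.1, R.det_add u.2 v.2 (CarZ.car u.1) (CarZ.car v.1)⟩)
    (fun a b u v => ⟨sub_mem u.1 v.1, R.det_sub u.2 v.2 (CarZ.car u.1) (CarZ.car v.1)⟩)
    ⟨fZ, dt C.des⟩ ⟨sZ, dt sD⟩ z1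
  have nc := ns_cc fZ sZ fun i => (z1 i).1
  have cB : ∀ i j, I2 (cc f s e₁ i) (cc f s e₁ j) = ((if i = j then 0 else 1 : ℤ) : ℝ) :=
    fun i j => (ax.lat_eq hK g (m i).1 (m j).1).1 (by rw [nc, nc]; exact h.cB i j)
  refine ⟨cc f s e₁, ⟨fun i => ⟨(m i).1, (m i).2, by simp [cB], ?_⟩, fun i j n => by
    simp [cB, n]⟩, rfl, fun π p => ?_⟩
  · have := ax.lat_neg hK g kZ (m i).1
    rw [nc, h.kc] at this
    rw [← neg_eq_iff_eq_neg, ← this]
    norm_num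
  have hp : ∀ (σ : Gal φ) i, σ • cc (ns f) (ns s) (fun i => ns (e₁ i)) i =
      cc (ns f) (ns s) (fun i => ns (e₁ i)) (π σ i) := fun σ i => by
    rw [← nc, ← nc]
    exact (smul_ns_iff g σ (m _).1 (m _).1).2 (p σ i)
  have hk := ax.smul_k hK g z.toMd
  have hf' : ∀ σ : Gal φ, σ • ns f = ns f := fun σ => (smul_ns_iff g σ fZ fZ).2 (hf σ.1 σ.2)
  refine ⟨?_, h.four hp hk hf', h.swp hp hk hf' fun i => ?_⟩
  · rintro σ ⟨a, b⟩
    have S : ∑ i, e i ∈ CarZ K' := sum_mem fun i _ => eZ i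
    refine ⟨a, .inl ((smul_ns_iff g ⟨σ, a⟩ S S).1 ?_)⟩
    rw [ns_sum _ fun i _ => eZ i, Finset.smul_sum]
    refine Finset.sum_congr rfl fun i _ => ?_
    have c := h.fix hp hk hf' b i
    rcases n1 i with d | d <;> simp only [d] at c
    · exact c
    · rwa [smul_sub, hf', sub_right_inj] at c
  · obtain ⟨σ, a, b⟩ := C.swap i
    have c := (smul_ns_iff g ⟨σ, a⟩ (eZ i) (sub_mem fZ (eZ i))).2 b
    rw [ns_sub fZ (eZ i)] at c
    refine ⟨⟨σ, a⟩, ?_⟩
    rcases n1 i with d | d <;> simp only [d]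
    · exact c
    · rw [smul_sub, hf', c]

end Vale.Agent.P287D.Fm
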