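import Vale.Agent.P287D.Fm.St
import Vale.Agent.P287D.Gf.Des
import Vale.Agent.P287D.Dp.Orb

/-!
# P287D, block FM: descent to the splitting field
-/

set_option linter.all false

open Set Equiv Polynomial
open scoped IntermediateField

noncomputable section

namespace Vale.Agent.P287D.Fm

open Hd Gf

theorem be_sub {L K C K' : Type} [Field L] [Field K] [Field C] [Field K'] [Algebra L K]
    [Algebra L C] [Algebra K K'] [Algebra C K'] [Algebra L K'] [IsScalarTower L K K']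
    [IsScalarTower L C K'] (h : BE L K C K') (W : Submodule L K) {f : K}
    (hf : algebraMap K K' f ∈ Submodule.span C (algebraMap K K' '' W)) : f ∈ W := by
  by_contra k
  let b := Module.Basis.ofVectorSpace L W
  have h1 : LinearIndependent L (W.subtype ∘ b) := b.linearIndependent.map' _ W.ker_subtype
  have h2 : Submodule.span L (range (W.subtype ∘ b)) = W := by
    rw [range_comp, ← Submodule.map_span, b.span_eq, Submodule.map_top, W.range_subtype]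
  have h3 := (linearIndependent_option.1 (h.dis' (linearIndependent_option'.2
    ⟨h1, h2.symm ▸ k⟩))).2
  refine h3 (Submodule.span_le.2 ?_ hf)
  rintro _ ⟨w, hw, rfl⟩
  rw [← h2] at hw
  induction hw using Submodule.span_induction with
  | mem x hx => obtain ⟨i, rfl⟩ := hx; exact Submodule.subset_span ⟨i, rfl⟩
  | zero => rw [map_zero]; exact zero_mem _
  | add x y _ _ a b => rw [map_add]; exact add_mem a b
  | smul a x _ hx =>
    rw [Algebra.smul_def, map_mul, ← IsScalarTower.algebraMap_apply,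
      IsScalarTower.algebraMap_apply L C K', ← Algebra.smul_def]
    exact Submodule.smul_mem _ _ hx

theorem tow_sq {K₀ K : Type} [Field K₀] [Algebra ℂ K₀] [Field K] [Algebra ℂ K] [Algebra K₀ K]
    (T : Tow K₀ K) (a : K₀) : algebraMap T.J T.F (algebraMap K₀ T.J a) =
      algebraMap K T.F (algebraMap K₀ K a) :=
  (IsScalarTower.algebraMap_apply K₀ T.J T.F a).symm.trans
    (IsScalarTower.algebraMap_apply K₀ K T.F a)

variable {K K' : Type} [Field K] [Algebra ℂ K] [Field K'] [Algebra ℂ K']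
  {L : IntermediateField ℂ K} {φ : K →+* K'}

/-- generators descend -/
theorem gen_des (h : GF L φ) {S : Set K} (hS : IntermediateField.adjoin ℂ (φ '' S) = ⊤) :
    IntermediateField.adjoin L S = ⊤ := h.elim fun e b => by
  subst e
  let E := IntermediateField.adjoin L S
  have b' : BE L E ℂ K' := ⟨eq_top_iff.2 fun x _ => Subfield.closure_mono (by
      rintro _ (⟨c, rfl⟩ | ⟨s, hs, rfl⟩)
      · exact .inr ⟨c, rfl⟩
      · exact .inl ⟨⟨s, IntermediateField.subset_adjoin _ _ hs⟩, rfl⟩)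
      (show x ∈ IntermediateField.adjoin ℂ (algebraMap K K' '' S) from hS ▸ trivial),
    fun m v hv => b.dis m _ (hv.map' E.val.toLinearMap
      (LinearMap.ker_eq_bot.2 Subtype.val_injective))⟩
  refine eq_top_iff.2 fun f _ => be_sub b (Subalgebra.toSubmodule E.toSubalgebra)
    (Submodule.span_mono ?_ (b'.span _))
  rintro _ ⟨x, rfl⟩
  exact ⟨x.1, x.2, rfl⟩

/-- the line over the constants is algebraic over the line -/
theorem line_mem (h : GF L φ) {P : Pl K'} {z : K} (hz : ∀ f ∈ L⟮z⟯, φ f ∈ P.ring) :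
    ∀ a ∈ ℂ⟮φ z⟯, a ∈ P.ring := h.elim fun e b => by
  subst e
  intro a ha
  have h1 : ℂ⟮algebraMap K K' z⟯.toSubfield ≤ (algebraicClosure L⟮z⟯ K').toSubfield :=
    Subfield.closure_le.2 (by
      rintro _ (⟨c, rfl⟩ | rfl)
      · exact mem_algebraicClosure_iff'.2
          (((Algebra.IsIntegral.isIntegral (R := L) c).algebraMap (B := K')).tower_top)
      · exact (algebraicClosure L⟮z⟯ K').algebraMap_mem
          ⟨z, IntermediateField.mem_adjoin_simple_self L z⟩)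
  obtain ⟨p, hp, h0⟩ := mem_algebraicClosure_iff'.1 (h1 ha)
  exact int_mem _ (ψ := algebraMap L⟮z⟯ K') (fun f => hz f f.2) hp h0

variable {N : Set (K' ≃+* K')} {T : Tow L K} {ι : T.F →+* K'}

theorem adjoin_eq (T : Tow L K) (S : Set T.F) : (IntermediateField.adjoin T.J S).toSubfield =
    (IntermediateField.adjoin (IsScalarTower.toAlgHom ℂ T.J T.F).fieldRange S).toSubfield :=
  congrArg (fun u => Subfield.closure (u ∪ S)) (Set.ext fun _ =>
    ⟨fun ⟨c, e⟩ => ⟨⟨_, c, rfl⟩, e⟩, fun ⟨⟨_, c, rfl⟩, e⟩ => ⟨c, e⟩⟩)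

namespace Dsd

variable (t : Dsd L φ N T ι)
include t

theorem comp' : ι.comp (algebraMap K T.F) = φ := RingHom.ext t.comp

theorem gen {S : Set T.F} (hS : IntermediateField.adjoin ℂ (ι '' S) = ⊤) :
    IntermediateField.adjoin T.J S = ⊤ := eq_top_iff.2 fun x _ =>
  (adjoin_eq T S).ge (show x ∈ IntermediateField.adjoin _ S from gen_des t.gf.toGF hS ▸ trivial)

theorem below (P : Pl K') : ∃ R, Lies ι P R ∧ Tv T.J R ∧ (∀ f, P.ord (ι f) = R.ord f) ∧
    ∀ Q, Lies φ P Q → Ov K R Q :=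
  let ⟨R, h⟩ := t.gf.toGF.below t.gf.ff P
  ⟨R, h, fun c => t.gf.toExt.hor h _ ⟨c, rfl⟩, t.gf.toGF.ord_eq h,
    fun _ k => h.of_comp (t.comp'.symm ▸ k)⟩

theorem up {O : Set (Pl K)} {z : T.F} (h : UpV (Abv φ O) (ι z)) : T.Up O z := fun P Q k1 k2 => by
  obtain ⟨R, k3⟩ := t.gf.toGF.above t.gf.fl (Q := P) (by
    rintro _ ⟨c, rfl⟩
    exact k2 (algebraMap T.J T.J⟮z⟯ c))
  obtain ⟨Q', k4, k5⟩ := h R (line_mem t.gf.toGF fun f hf =>
    (k3 f).1 (k2 ⟨f, (adjoin_eq T {z}).ge hf⟩))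
  exact k5.uniq (t.comp' ▸ k3.comp k1) ▸ k4

theorem two {O : Set (Pl K)} {z : T.F} (h : TwoV N (Abv φ O) (ι z)) : T.Two O z := by
  obtain ⟨P₁, ⟨Q₁, a1, a2⟩, P₂, ⟨Q₂, b1, b2⟩, ne, a3, b3, fx⟩ := h
  obtain ⟨R₁, c1, c2, c3, c4⟩ := t.below P₁
  obtain ⟨R₂, d1, d2, d3, d4⟩ := t.below P₂
  refine ⟨R₁, R₂, Q₁, Q₂, ?_, c2, d2, c3 z ▸ a3, d3 z ▸ b3, c4 _ a2, d4 _ b2, a1, b1⟩
  rintro rfl
  obtain ⟨σ, e1, e2⟩ := t.gf.toGF.trans d1 c1
  exact ne ((fx σ ((t.gal σ).1 e1)).uniq e2)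

end Dsd

theorem dt : DT := fun K K' _ _ _ _ L φ _ S d hS N H T ι t e s => by
  obtain ⟨M, _, _, ι₀, j, h1, h2, -⟩ := id s
  let χ := ι.comp (algebraMap T.J T.F)
  have k : ∀ a : L, χ (algebraMap L T.J a) = φ a := fun a =>
    (congrArg ι (tow_sq T a)).trans (t.comp _)
  let M' : IntermediateField L T.J := (j.fieldRange.comap χ).toIntermediateField fun a =>
    ⟨ι₀ a, (h1 a).trans (k a).symm⟩
  refine ⟨M', (Dp.styp_iff_of hS (IsScalarTower.toAlgHom ℂ L M') (χ.comp (algebraMap M' T.J)) k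
    (Subset.antisymm ?_ fun x hx => ?_)).1 s⟩
  · rintro _ ⟨a, rfl⟩
    exact h2.le a.2
  · obtain ⟨c, rfl⟩ := (t.cst x).2 ⟨hx.1, fun σ hσ => hx.2 σ (e hσ)⟩
    exact ⟨⟨c, h2.ge hx⟩, rfl⟩

theorem du : DU := fun _ _ _ _ _ _ _ _ _ _ _ _ t _ _ => ⟨t.up, t.two⟩

section act

variable {Q : Type} [Group Q] {π : Gal φ →* Q} (t : Dsd L φ (Kr π) T ι)
include t

theorem Dsd.ker (σ : Gal φ) : π σ = 1 ↔ ∀ x, σ.1 (ι x) = ι x :=
  ⟨fun h => (t.gal _).2 ⟨σ.2, h⟩, fun h => ((t.gal _).1 h).2⟩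

/-- the action of the finite Galois group -/
theorem Dsd.act : ∃ π₀ : (T.F ≃ₐ[K] T.F) →* Q, Function.Injective π₀ ∧ range π₀ = range π ∧
    ∀ τ, ∃ σ : Gal φ, π₀ τ = π σ ∧ ∀ x, ι (τ x) = σ.1 (ι x) := by
  have key : ∀ σ σ' : Gal φ, (∀ x, σ.1 (ι x) = σ'.1 (ι x)) → π σ = π σ' := fun σ σ' e => by
    rw [← inv_mul_eq_one, ← map_inv, ← map_mul, t.ker]
    exact fun x => σ.1.symm_apply_eq.2 (e x).symm
  choose l l1 l2 using t.lift
  let l' : (T.F ≃ₐ[K] T.F) → Gal φ := fun τ => ⟨l τ, l1 τ⟩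
  refine ⟨MonoidHom.mk' (fun τ => π (l' τ)) fun a b => ?_, (injective_iff_map_eq_one _).2
    fun τ e => AlgEquiv.ext fun x => ι.injective ((l2 τ x).trans ((t.ker _).1 e x)),
    Subset.antisymm (range_subset_iff.2 fun τ => ⟨_, rfl⟩) (range_subset_iff.2 fun σ => ?_),
    fun τ => ⟨l' τ, rfl, l2 τ⟩⟩
  · rw [← map_mul]
    exact key _ _ fun x => (l2 _ x).symm.trans ((l2 a _).trans (congrArg (l a) (l2 b x)))
  · obtain ⟨τ, e⟩ := t.res σ.1 σ.2
    exact ⟨τ, key _ _ fun x => (l2 τ x).symm.trans (e x)⟩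

end act

theorem d5 : D5 := fun K K' _ _ _ _ L φ _ y π v T ι t => by
  have h1 : ∀ ρ, y ρ ∈ range ι := fun ρ => t.gf.toGF.fixed fun σ hσ => by
    obtain ⟨a, b⟩ := (t.gal σ).1 hσ
    exact (v.eqv ⟨σ, a⟩ ρ).trans (by rw [b, one_mul])
  choose y₀ h2 using h1
  obtain ⟨π₀, k1, k2, k3⟩ := t.act
  refine ⟨y₀, π₀, ⟨⟨fun ρ => ι.injective ?_, fun ρ => ι.injective ?_, fun ρ => ι.injective ?_,
    fun ρ => ι.injective ?_⟩, k1, fun τ ρ => ι.injective ?_, t.gen ?_⟩, h2, k2⟩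
  · rw [map_mul, h2, h2, map_one, v.cr.inv]
  · rw [map_add, h2, h2, map_one, v.cr.add]
  · rw [h2, h2, v.cr.sym]
  · rw [map_mul, h2, h2, h2, ← v.cr.mul]
  · obtain ⟨σ, a, b⟩ := k3 τ
    rw [b, h2, h2, a, v.eqv]
  · rw [← range_comp, show ι ∘ y₀ = y from funext h2, v.gen]

theorem UpV.smul {O : Set (Pl K')} {z : K'} (h : UpV O z) {c : ℂ} (hc : c ≠ 0) :
    UpV O (c • z) := fun P k => h P fun a ha => k a <| by
  have := IntermediateField.smul_mem _ (IntermediateField.mem_adjoin_simple_self ℂ (c • z)) (x := c⁻¹)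
  rw [inv_smul_smul₀ hc] at this
  exact IntermediateField.adjoin_simple_le_iff.2 this ha

theorem TwoV.smul {O : Set (Pl K')} {z : K'} (h : TwoV N O z) {c : ℂ} (hc : c ≠ 0) :
    TwoV N O (c • z) :=
  let ⟨P₁, a, P₂, b, n, e1, e2, f⟩ := h
  ⟨P₁, a, P₂, b, n, (P₁.ord_smul hc z).trans e1, (P₂.ord_smul hc z).trans e2, f⟩

theorem d6 : D6 := fun K K' _ _ _ _ L φ g z π v T ι t O u => by
  have h1 : ∀ i, ∃ (w : T.F) (c : ℂ), c ≠ 0 ∧ ι w = c • z i := fun i => by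
    have a := t.gf.toGF.desc (Submodule.span ℂ {z i}) (fun σ hσ x hx => (t.gf.toGF.semi hσ).span_mem
      (fun y hy => by
        obtain ⟨a, b⟩ := (t.gal σ).1 hσ
        obtain ⟨c, e⟩ := v.eqv ⟨σ, a⟩ i
        rw [b] at e
        refine Submodule.mem_span_singleton.2 ⟨c, ?_⟩
        rw [show y = z i from hy, Algebra.smul_def]
        simpa using e.symm) hx) (Submodule.mem_span_singleton_self _)
    by_contra! k
    refine v.ne i ((Submodule.span_eq_bot.2 ?_).le a)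
    rintro _ ⟨f, hf, rfl⟩
    obtain ⟨c, e⟩ := Submodule.mem_span_singleton.1 hf
    by_contra n
    exact k f c (by rintro rfl; exact n (e.symm.trans (zero_smul _ _))) e.symm
  obtain ⟨w, c, hc, hw, one⟩ : ∃ (w : Fin 3 → T.F) (c : Fin 3 → ℂ), (∀ i, c i ≠ 0) ∧
      (∀ i, ι (w i) = c i • z i) ∧ w 0 * w 1 * w 2 = 1 := by
    obtain ⟨w0, c0, a0, b0⟩ := h1 0
    obtain ⟨w1, c1, a1, b1⟩ := h1 1
    have n : w0 * w1 ≠ 0 := fun e => by
      have := congrArg ι e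
      rw [map_mul, map_zero, b0, b1] at this
      exact mul_ne_zero (smul_ne_zero a0 (v.ne 0)) (smul_ne_zero a1 (v.ne 1)) this
    refine ⟨![w0, w1, (w0 * w1)⁻¹], ![c0, c1, (c0 * c1)⁻¹], fun i => ?_, fun i => ?_,
      mul_inv_cancel₀ n⟩
    · fin_cases i
      exacts [a0, a1, inv_ne_zero (mul_ne_zero a0 a1)]
    · fin_cases i
      · exact b0
      · exact b1
      · change ι (w0 * w1)⁻¹ = (c0 * c1)⁻¹ • z 2
        rw [map_inv₀, map_mul, b0, b1, smul_mul_smul_comm, smul_inv₀,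
          inv_eq_of_mul_eq_one_right v.one]
  have w0 : ∀ i, w i ≠ 0 := fun i e => smul_ne_zero (hc i) (v.ne i) (by rw [← hw, e, map_zero])
  obtain ⟨π₀, k1, -, k3⟩ := t.act
  refine ⟨w, one, t.gen (eq_top_iff.2 (v.gen.ge.trans (IntermediateField.adjoin_le_iff.2 ?_))),
    fun τ hτ => ?_, fun i => ⟨t.up (hw i ▸ (u i).1.smul (hc i)),
      t.two (hw i ▸ (u i).2.1.smul (hc i)), t.two ?_⟩⟩
  · rintro _ ⟨i, rfl⟩
    rw [← inv_smul_smul₀ (hc i) (z i), ← hw]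
    exact IntermediateField.smul_mem _ (IntermediateField.subset_adjoin _ _
      (mem_image_of_mem ι (mem_range_self i)))
  · obtain ⟨σ, a, b⟩ := k3 τ
    have s := (Int.units_eq_one_or (π σ).2).imp (congrArg Units.val) (congrArg Units.val)
    refine ⟨(π σ).1, (π σ).2, s, ?_, fun i => ?_⟩
    · by_contra! n
      exact hτ (k1 (a.trans ((Prod.ext n.1 (Units.ext (s.resolve_right n.2))).trans
        π₀.map_one.symm)))
    · obtain ⟨c', e⟩ := v.eqv σ i
      obtain ⟨c'', e'⟩ := g.toGF.cst_gal σ.2 (c i)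
      have n := zpow_ne_zero ((π σ).2 : ℤ) (w0 ((π σ).1 i))
      obtain ⟨x, hx⟩ := (t.cst (ι (τ (w i) / w ((π σ).1 i) ^ ((π σ).2 : ℤ)))).2
        ⟨⟨c'' * c' / c ((π σ).1 i) ^ ((π σ).2 : ℤ), by
          have n1 := zpow_ne_zero ((π σ).2 : ℤ) (v.ne ((π σ).1 i))
          rw [map_div₀ ι, b, hw, map_zpow₀, hw, Algebra.smul_def, Algebra.smul_def, map_mul, ← e', e,
            mul_zpow, map_div₀, map_mul, map_zpow₀, ← mul_assoc, mul_div_mul_right _ _ n1]⟩,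
          fun σ' hσ' => (t.gal σ').2 hσ' _⟩
      exact ⟨x, by rw [ι.injective hx, div_mul_cancel₀ _ n]⟩
  · rw [map_inv₀, hw, smul_inv₀]
    exact (u i).2.2.smul (inv_ne_zero (hc i))

end Vale.Agent.P287D.Fm
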