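import Vale.Agent.P287D.Fm.St
import Vale.Agent.P287D.Gf.Res
import Vale.Agent.P287D.Hd.Cm

/-!
# P287D, block FM: the splitting field of a finite action of the Galois group
-/

set_option linter.unusedSectionVars false

open Set Polynomial
open scoped TensorProduct

noncomputable section

namespace Vale.Agent.P287D.Fm

open Gf Hd

section abs

variable {L K C K' : Type} [Field L] [Field K] [Field C] [Field K'] [Algebra L K] [Algebra L C]
  [Algebra K K'] [Algebra C K'] [Algebra L K'] [IsScalarTower L K K'] [IsScalarTower L C K']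

/-- linear disjointness is symmetric -/
theorem dis_swap (h : BE L K C K') {ι : Type} {v : ι → C} (hv : LinearIndependent L v) :
    LinearIndependent K fun i => algebraMap C K' (v i) := by
  let μ : C ⊗[L] K →ₐ[C] K' := Algebra.TensorProduct.lift (Algebra.ofId C K')
    (IsScalarTower.toAlgHom L K K') fun _ _ => Commute.all _ _
  let ν : K ⊗[L] C →ₐ[K] K' := Algebra.TensorProduct.lift (Algebra.ofId K K')
    (IsScalarTower.toAlgHom L C K') fun _ _ => Commute.all _ _
  have m : ∀ c f, μ (c ⊗ₜ f) = algebraMap C K' c * algebraMap K K' f := fun c f => rfl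
  have n : ∀ c f, ν (c ⊗ₜ f) = algebraMap K K' c * algebraMap C K' f := fun c f => rfl
  have hi : Function.Injective μ := by
    let b := Module.Basis.ofVectorSpace L K
    refine LinearMap.injective_of_linearIndependent (f := μ.toLinearMap)
      (Algebra.TensorProduct.basis C b).span_eq ?_
    have : μ.toLinearMap ∘ Algebra.TensorProduct.basis C b = fun i => algebraMap K K' (b i) := by
      funext i
      simp [Algebra.TensorProduct.basis_apply, m]
    rw [this]
    exact h.dis' b.linearIndependent
  have e : ∀ x, ν x = μ (TensorProduct.comm L K C x) := fun x => by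
    induction x using TensorProduct.induction_on with
    | zero => rw [map_zero, map_zero, map_zero]
    | tmul a b => rw [TensorProduct.comm_tmul, m, n, mul_comm]
    | add a b p q => rw [map_add, map_add, map_add, p, q]
  have hj : Function.Injective ν := fun a b k =>
    (TensorProduct.comm L K C).injective (hi (by rw [← e, ← e, k]))
  have := (Module.Flat.linearIndependent_one_tmul (S := K) hv).map' ν.toLinearMap
    (LinearMap.ker_eq_bot.2 hj)
  have k : ν.toLinearMap ∘ (fun i => (1 : K) ⊗ₜ[L] v i) = fun i => algebraMap C K' (v i) :=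
    funext fun i => (n 1 (v i)).trans (by rw [map_one, one_mul])
  exact k ▸ this

variable (L C) in
/-- the constants of an intermediate field -/
def cs (F : IntermediateField K K') : IntermediateField L C :=
  (F.restrictScalars L).comap (IsScalarTower.toAlgHom L C K')

theorem mem_cs {F : IntermediateField K K'} {c : C} : c ∈ cs L C F ↔ algebraMap C K' c ∈ F :=
  Iff.rfl

variable (L C) in
/-- the inclusion of the constants -/
def csi (F : IntermediateField K K') : cs L C F →+* F :=
  ((algebraMap C K').comp (algebraMap (cs L C F) C)).codRestrict F fun c => c.2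

theorem cs_rank (h : BE L K C K') (F : IntermediateField K K') [FiniteDimensional K F] :
    Module.rank L (cs L C F) ≤ Module.finrank K F := rank_le fun s hs => by
  have h1 := dis_swap h (hs.map' (cs L C F).val.toLinearMap
    (LinearMap.ker_eq_bot.2 Subtype.val_injective))
  have h2 : LinearIndependent K fun i : s => csi L C F i :=
    LinearIndependent.of_comp F.val.toLinearMap h1
  simpa using h2.fintype_card_le_finrank

theorem cs_fin (h : BE L K C K') (F : IntermediateField K K') [FiniteDimensional K F] :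
    FiniteDimensional L (cs L C F) :=
  Module.rank_lt_aleph0_iff.1 ((cs_rank h F).trans_lt Cardinal.natCast_lt_aleph0)

theorem cs_le (h : BE L K C K') (F : IntermediateField K K') [FiniteDimensional K F] :
    Module.finrank L (cs L C F) ≤ Module.finrank K F :=
  Module.finrank_le_of_rank_le (cs_rank h F)

variable [Algebra.IsAlgebraic L C] [IsAlgClosed C]

theorem cs_gal [CharZero L] (h : BE L K C K') (F : IntermediateField K K') [Normal K F] :
    IsGalois L (cs L C F) := by
  have : IsAlgClosure L C := ⟨inferInstance, inferInstance⟩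
  have : Normal L (cs L C F) := IntermediateField.normal_iff_forall_map_le'.2 fun τ => by
    rintro _ ⟨c, hc, rfl⟩
    obtain ⟨σ, s1, s2⟩ := h.extend τ
    have k := (AlgEquiv.ofRingEquiv (f := σ) s1).restrictNormal_commutes F ⟨_, mem_cs.1 hc⟩
    refine mem_cs.2 ?_
    change algebraMap C K' (τ c) ∈ F
    rw [← s2]
    exact (show _ = σ (algebraMap C K' c) from k) ▸ Subtype.property _
  exact ⟨⟩

variable (L) in
include L in
/-- automorphisms preserve the constants -/
theorem aut_cst (σ : K' ≃ₐ[K] K') (c : C) : ∃ d, σ (algebraMap C K' c) = algebraMap C K' d := by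
  have h1 : IsAlgebraic L (σ (algebraMap C K' c)) :=
    ((Algebra.IsAlgebraic.isAlgebraic (R := L) c).algebraMap (A := K')).algHom
      (σ.restrictScalars L).toAlgHom
  obtain ⟨d, e⟩ := mem_range (h1.tower_top C)
  exact ⟨d, e.symm⟩

/-- Galois descent -/
theorem fix_span (h : BE L K C K') (N : Subgroup (K' ≃ₐ[K] K'))
    (x : IntermediateField.fixedField N) : x ∈ IntermediateField.adjoin K
      (range (csi L C (IntermediateField.fixedField N))) := by
  let b := Module.Basis.ofVectorSpace L K
  have hi := h.dis' b.linearIndependent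
  have h1 : (x : K') ∈ Submodule.span C (range fun i => algebraMap K K' (b i)) := by
    refine (Submodule.span_le.2 ?_ : _ ≤ _) (h.span x)
    rintro _ ⟨f, rfl⟩
    rw [← b.linearCombination_repr f, Finsupp.linearCombination_apply, map_finsuppSum]
    refine Submodule.sum_mem _ fun i _ => ?_
    change algebraMap K K' (_ • _) ∈ _
    rw [Algebra.smul_def, map_mul, ← IsScalarTower.algebraMap_apply,
      IsScalarTower.algebraMap_apply L C K', ← Algebra.smul_def]
    exact Submodule.smul_mem _ _ (Submodule.subset_span ⟨i, rfl⟩)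
  obtain ⟨c, hc⟩ := Finsupp.mem_span_range_iff_exists_finsupp.1 h1
  have h2 : ∀ i ∈ c.support, c i ∈ cs L C (IntermediateField.fixedField N) := fun i k =>
    mem_cs.2 fun σ => by
      choose d hd using fun i => aut_cst L σ.1 (c i)
      have e : ∑ i ∈ c.support, (d i - c i) • algebraMap K K' (b i) = 0 := by
        simp only [sub_smul, Finset.sum_sub_distrib]
        rw [sub_eq_zero]
        refine Eq.trans ?_ ((x.2 σ).trans hc.symm)
        change _ = σ.1 x
        rw [← hc, Finsupp.sum, map_sum]
        exact Finset.sum_congr rfl fun i _ => by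
          rw [Algebra.smul_def, Algebra.smul_def, map_mul, hd, AlgEquiv.commutes]
      have := linearIndependent_iff'.1 hi _ _ e i k
      change σ.1 _ = _
      rw [hd, sub_eq_zero.1 this]
  have h3 : x = ∑ i ∈ c.support.attach, csi L C _ ⟨c i, h2 i i.2⟩ * algebraMap K _ (b i) := by
    refine Subtype.ext ?_
    rw [← hc, Finsupp.sum, ← Finset.sum_attach, AddSubmonoidClass.coe_finsetSum]
    exact Finset.sum_congr rfl fun i _ => Algebra.smul_def _ _
  rw [h3]
  exact sum_mem fun i _ => mul_mem (IntermediateField.subset_adjoin _ _ ⟨_, rfl⟩)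
    (IntermediateField.algebraMap_mem _ _)

end abs

section gal

variable {K K' : Type} [Field K] [Field K'] [Algebra K K'] [IsGalois K K']

theorem ker_fix {Q : Type} [Group Q] [Finite Q] (π : (K' ≃ₐ[K] K') →* Q) (s : Finset K')
    (hs : ∀ σ, (∀ x ∈ s, σ x = x) → π σ = 1) :
    (IntermediateField.fixedField π.ker).fixingSubgroup = π.ker ∧
      FiniteDimensional K (IntermediateField.fixedField π.ker) ∧
      IsGalois K (IntermediateField.fixedField π.ker) ∧
      Module.finrank K (IntermediateField.fixedField π.ker) ≤ Nat.card Q := by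
  have : FiniteDimensional K (IntermediateField.adjoin K (s : Set K')) :=
    IntermediateField.finiteDimensional_adjoin fun x _ => Algebra.IsIntegral.isIntegral x
  have o : IsOpen (π.ker : Set (K' ≃ₐ[K] K')) := Subgroup.isOpen_mono
    (H₁ := (IntermediateField.adjoin K (s : Set K')).fixingSubgroup)
    (fun σ k => hs σ fun x hx => k ⟨x, IntermediateField.subset_adjoin _ _ hx⟩)
    (IntermediateField.fixingSubgroup_isOpen _)
  have e : (IntermediateField.fixedField π.ker).fixingSubgroup = π.ker :=
    InfiniteGalois.fixingSubgroup_fixedField ⟨π.ker, Subgroup.isClosed_of_isOpen _ o⟩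
  obtain ⟨a, b⟩ := (InfiniteGalois.isOpen_and_normal_iff_finite_and_isGalois
    (IntermediateField.fixedField π.ker)).1 ⟨by rw [e]; exact o, by rw [e]; infer_instance⟩
  refine ⟨e, a, b, ?_⟩
  rw [IntermediateField.finrank_eq_fixingSubgroup_index, e, Subgroup.index_ker]
  exact Nat.card_le_card_of_injective _ Subtype.val_injective

end gal

section tow

variable {K C K' : Type} [Field K] [Algebra ℂ K] {L : IntermediateField ℂ K} [Field C] [Field K']
  [Algebra L C] [Algebra K K'] [Algebra C K'] [IsScalarTower L C K'] [Algebra.IsAlgebraic L C]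
  [IsAlgClosed C]

/-- the splitting which belongs to `N` -/
def tow (b : BE L K C K') (N : Subgroup (K' ≃ₐ[K] K'))
    [FiniteDimensional K (IntermediateField.fixedField N)]
    [IsGalois K (IntermediateField.fixedField N)]
    (f : Module.finrank K (IntermediateField.fixedField N) ≤ 120) : Tow L K :=
  let F := IntermediateField.fixedField N
  let J := cs L C F
  letI : Algebra ℂ J := ((algebraMap L J).comp (algebraMap ℂ L)).toAlgebra
  letI : Algebra ℂ F := ((algebraMap K F).comp (algebraMap ℂ K)).toAlgebra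
  letI : Algebra J F := (csi L C F).toAlgebra
  haveI : IsScalarTower L J F := .of_algebraMap_eq fun a =>
    Subtype.ext (IsScalarTower.algebraMap_apply L C K' a)
  haveI := charZero_of L
  { J := J
    F := F
    t1 := .of_algebraMap_eq fun _ => rfl
    t2 := .of_algebraMap_eq fun _ => rfl
    t3 := .of_algebraMap_eq fun a => IsScalarTower.algebraMap_apply L J F (algebraMap ℂ L a)
    fdJ := cs_fin b F
    gJ := cs_gal b F
    gen := eq_top_iff.2 fun x _ => fix_span b N x
    rkJ := (cs_le b F).trans f
    rkF := f }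

end tow

/-- **DS** -/
theorem ds : DS := by
  intro K K' _ _ _ _ L φ g Q _ _ π hQ ⟨s, hs⟩
  refine g.toGF.elim fun e b => ?_
  subst e
  have := charZero_of L
  have := b.galois
  let u : (K' ≃ₐ[K] K') →* Gal (algebraMap K K') :=
    { toFun := fun σ => ⟨σ.toRingEquiv, σ.commutes⟩
      map_one' := rfl
      map_mul' := fun _ _ => rfl }
  obtain ⟨e, f1, f2, f3⟩ := ker_fix (π.comp u) s fun σ k => hs (u σ) k
  generalize hN : (π.comp u).ker = N at e f1 f2 f3
  have kN : ∀ σ : K' ≃+* K', σ ∈ Kr π ↔ ∃ h : σ ∈ Gal (algebraMap K K'),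
      AlgEquiv.ofRingEquiv (f := σ) h ∈ N := fun σ => by rw [← hN]; rfl
  let F := IntermediateField.fixedField N
  let T := tow b N (f3.trans hQ)
  let ι : T.F →+* K' := algebraMap F K'
  have mF : ∀ x, x ∈ F ↔ ∀ σ ∈ Kr π, σ x = x := fun x =>
    ⟨fun k σ h => let ⟨_, h⟩ := (kN σ).1 h; k ⟨_, h⟩,
      fun k σ => k σ.1.toRingEquiv ((kN _).2 ⟨σ.1.commutes, σ.2⟩)⟩
  refine ⟨T, ι, fun _ => rfl, fun x => ⟨?_, ?_⟩, fun σ => ⟨fun k => ?_, ?_⟩,
    fun σ h => ?_, fun τ => ?_, mk_gf (fun x hx => ?_) ?_ ?_ fun c => ?_, ff_up g.fk, ?_⟩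
  · rintro ⟨c, rfl⟩
    exact ⟨⟨c.1, rfl⟩, (mF _).1 c.2⟩
  · rintro ⟨⟨c, rfl⟩, k⟩
    exact ⟨⟨c, (mF _).2 k⟩, rfl⟩
  · exact (kN σ).2 ⟨fun f => k (algebraMap K F f), e ▸ fun x => k x⟩
  · exact fun k x => (mF _).1 x.2 σ k
  · exact ⟨_, (AlgEquiv.ofRingEquiv (f := σ) h).restrictNormal_commutes F⟩
  · let τ' : F ≃ₐ[K] F := τ
    exact ⟨(τ'.liftNormal K').toRingEquiv, (τ'.liftNormal K').commutes,
      fun x => (τ'.liftNormal_commutes K' x).symm⟩
  · have h1 : IsAlgebraic ℂ (ι x) := by
      obtain ⟨j, hj⟩ := exists_j (ι.comp (inc (IsScalarTower.toAlgHom ℂ T.J T.F).fieldRange))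
        (by rintro ⟨_, c, rfl⟩; exact ⟨c.1, rfl⟩)
      exact hx.ringHom_of_comp_eq j ι j.injective (RingHom.ext hj)
    obtain ⟨c, hc⟩ := mem_range h1
    exact ⟨⟨c, mem_cs.2 (hc ▸ x.2)⟩, Subtype.ext hc⟩
  · rintro _ ⟨c, rfl⟩
    exact ⟨c.1, rfl⟩
  · refine eq_top_iff.2 (b.gen ▸ Subfield.closure_mono (union_subset_union_left _ ?_))
    rintro _ ⟨f, rfl⟩
    exact ⟨algebraMap K F f, rfl⟩
  · obtain ⟨p, p0, hp⟩ := g.alg c
    let j : L →+* (IsScalarTower.toAlgHom ℂ T.J T.F).fieldRange :=
      ((algebraMap T.J T.F).comp (algebraMap L T.J)).codRestrict _ fun a => ⟨_, rfl⟩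
    refine ⟨p.map j, Polynomial.map_ne_zero p0, ?_⟩
    rw [eval₂_map, ← hp]
    exact congrArg (eval₂ · _ p) (RingHom.ext fun a =>
      (IsScalarTower.algebraMap_apply L ℂ K' a).symm)
  · exact (Semi.of_alg (AlgEquiv.ofInjectiveField (IsScalarTower.toAlgHom ℂ T.J T.F))).ff (ff_up g.fl)

end Vale.Agent.P287D.Fm
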