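import Vale.Agent.P287D.Fm.Pi

/-!
# P287D, block FM: the hexagon of a del Pezzo surface of degree six
-/

set_option linter.all false

open Set Equiv
open scoped IntermediateField

noncomputable section

namespace Vale.Agent.P287D.Fm.H6

open Hd Dp Sf

variable {K₀ K : Type} [Field K₀] [Algebra ℂ K₀] [Field K] [Algebra ℂ K] {X k t t' b : BD K}
  {f : Fin 3 → BD K} {L : IntermediateField ℂ K₀} {φ : K₀ →+* K} {h : Dl X k}

/-- the classes of the two blow downs to the plane -/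
structure Hy (h : Dl X k) (f : Fin 3 → BD K) (t : BD K) : Prop where
  g : t ∈ h.G
  sq : h.J t t = 1
  tf : ∀ i, h.J t (f i) = 1

theorem exists_hom (g : GF L φ) {ι : Type} (v : ι → BD K) (inj : ∀ i j, Num (v i - v j) → i = j)
    (all : ∀ (σ : Gal φ) i, ∃ j, Num (pb (σ.1 : K →+* K) (v i) - v j)) :
    ∃ π : Gal φ →* Perm ι, ∀ σ i, Num (pb (σ.1 : K →+* K) (v i) - v (π σ i)) := by
  choose p hp using all
  have m : ∀ σ τ i, p (σ * τ) i = p σ (p τ i) := fun σ τ i => by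
    have a := (g.semi σ.2).num.2 (hp τ i)
    rw [pb_sub, ← pb_mul g] at a
    exact inj _ _ (Num.trans' (Num.trans' (Num.symm' (hp _ i)) a) (hp σ _))
  have o : ∀ i, p 1 i = i := fun i => by
    have := hp 1 i
    rw [pb_one] at this
    exact (inj _ _ this).symm
  exact ⟨MonoidHom.toHomPerm ⟨⟨p, funext o⟩, fun σ τ => funext (m σ τ)⟩, hp⟩

theorem perm_units (ρ : Perm ℤˣ) (a : ℤˣ) : ρ a = ρ 1 * a := by
  rcases Int.units_eq_one_or a with rfl | rfl
  · simp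
  · have : ρ (-1) ≠ ρ 1 := fun e => by simpa using ρ.injective e
    simpa using Int.units_ne_iff_eq_neg.1 this

theorem perm_three : ∀ (ρ : Perm (Fin 3)) (i : Fin 3),
    (ρ (i + 1) = ρ i + 1 ∧ ρ (i + 2) = ρ i + 2 ∧ Perm.sign ρ = 1) ∨
    (ρ (i + 1) = ρ i + 2 ∧ ρ (i + 2) = ρ i + 1 ∧ Perm.sign ρ = -1) := by decide

section lat

variable (s : Cs X k f) (d : h.J k k = 6)
include s d

theorem kb (hb : b ∈ Car K) : h.J k b = -(h.J b (f 0) + h.J b (f 1) + h.J b (f 2)) := by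
  have := h.J_num (s.sum h (c := 1) (by rw [d]; norm_num) (by norm_num)) hb
  rw [h.symm, Fin.sum_univ_three, one_smul, map_add, map_add, map_add, h.symm b k] at this
  linarith

theorem Hy.kt (a : Hy h f t) : h.J k t = -3 := by
  rw [kb s d (Dl.car a.g), a.tf, a.tf, a.tf]; norm_num

theorem exists_hy : ∃ t, Hy h f t := by
  have g := s.G h
  have ff := s.ff h
  obtain ⟨a, ga, aa, ka, aw, -⟩ := h.two (sub_mem (add_mem (g 0) (g 1)) (g 2))
    (by simp [ff]; norm_num) (by simp [s.kf h])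
  have kk := kb s d (Dl.car ga)
  have u := h.hodge (Dl.car (add_mem (add_mem ga (g 0)) (g 2)))
  have v := h.hodge (Dl.car (add_mem (add_mem ga (g 1)) (g 2)))
  simp only [map_add, map_sub, LinearMap.add_apply, ff, s.kf h, h.symm (f _) a, aa, ka, d] at u v aw
  obtain ⟨x, hx⟩ := Dl.J_int ga (g 0)
  obtain ⟨y, hy⟩ := Dl.J_int ga (g 1)
  have e2 : h.J a (f 2) = 1 := by linarith
  simp only [hx, hy, e2] at u v aw
  simp at u v
  have x0 : x < 1 := by exact_mod_cast (by linarith : (x : ℝ) < 1)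
  have y0 : y < 1 := by exact_mod_cast (by linarith : (y : ℝ) < 1)
  have xy : x + y = 0 := by exact_mod_cast (by linarith : (x : ℝ) + y = 0)
  obtain rfl : x = 0 := by omega
  obtain rfl : y = 0 := by omega
  refine ⟨a + f 2, add_mem ga (g 2), ?_, fun i => ?_⟩
  · simp [ff, h.symm (f _) a, aa, e2]
  · fin_cases i <;> simp [ff, hx, hy, e2]

theorem Hy.other (a : Hy h f t) : Hy h f (f 0 + f 1 + f 2 - t) := by
  have g := s.G h
  refine ⟨sub_mem (add_mem (add_mem (g 0) (g 1)) (g 2)) a.g, ?_, fun i => ?_⟩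
  · simp [s.ff h, h.symm (f _) t, a.sq, a.tf]
  · fin_cases i <;> simp [s.ff h, a.tf]

theorem Hy.le (a : Hy h f t) (a' : Hy h f t') : 1 ≤ h.J t t' := by
  have u := h.hodge (Dl.car (sub_mem a.g a'.g))
  simp only [map_sub, LinearMap.sub_apply, a.sq, a'.sq, a.kt s d, a'.kt s d, h.symm t' t, d] at u
  linarith

theorem Hy.num (a : Hy h f t) (a' : Hy h f t') (e : h.J t t' ≤ 1) : Num (t - t') :=
  h.num_of (Dl.car (sub_mem a.g a'.g)) (by rw [map_sub, a.kt s d, a'.kt s d, sub_self]) (by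
    simp only [map_sub, LinearMap.sub_apply, a.sq, a'.sq, h.symm t' t]
    linarith)

theorem Hy.two (a : Hy h f t) (a' : Hy h f t') :
    Num (t' - t) ∨ Num (t' - (f 0 + f 1 + f 2 - t)) := by
  obtain ⟨m, e⟩ := Dl.J_int a'.g a.g
  by_cases q : m ≤ 1
  · exact .inl (a'.num s d a (by rw [e]; exact_mod_cast q))
  · refine .inr (a'.num s d (a.other s d) ?_)
    have : (2 : ℝ) ≤ m := by exact_mod_cast (by omega : 2 ≤ m)
    simp only [map_sub, map_add, a'.tf, e]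
    linarith

end lat

theorem Hy.conj (ax : Ax) (z : Dz L φ X k) (s : Cs X k f) (σ : Gal φ) (ρ : Perm (Fin 3))
    (e : ∀ i, Num (pb (σ.1 : K →+* K) (f i) - f (ρ i))) (a : Hy h f t) :
    Hy h f (pb (σ.1 : K →+* K) t) := by
  have m := z.gf.toGF.semi σ.2
  have c := Dl.car a.g
  have g : pb (σ.1 : K →+* K) t ∈ h.G :=
    ⟨m.carZ.2 a.g.1, ax.det_pb z.ff z.gf.toGF z.toMd σ.2 c a.g.2⟩
  refine ⟨g, ?_, fun i => ?_⟩
  · rw [Dl.J_G g g, ax.I2_pb z.ff m _ c, ← Dl.J_G a.g a.g, a.sq]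
  · obtain ⟨i, rfl⟩ := ρ.surjective i
    have c' := Dl.car (s.G h i)
    rw [← h.J_congr' (e i) (Dl.car g), h.J_eq (Dl.car g) (m.car.2 c'), ax.I2_pb z.ff m _ c',
      ← h.J_eq c c', a.tf]

/-- the six lines -/
structure Hex (h : Dl X k) (f : Fin 3 → BD K) (H : ℤˣ → BD K) (P : Fin 3 → ℤˣ → Pl K)
    (u : Fin 3 → ℤˣ → K) : Prop where
  cs : Cs X k f
  hy : ∀ a, Hy h f (H a)
  hh : ∀ a b, h.J (H a) (H b) = if a = b then 1 else 2
  sm : H 1 + H (-1) = f 0 + f 1 + f 2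
  all : ∀ t, Hy h f t → ∃ a, Num (t - H a)
  on : ∀ c a, On 1 X (P c a)
  ne : ∀ c a, u c a ≠ 0
  eq : ∀ c a, dv (u c a) + (H a - f c) = st X (P c a)

theorem exists_hex (s : Cs X k f) (d : h.J k k = 6) : ∃ H P u, Hex h f H P u := by
  obtain ⟨t, a⟩ := exists_hy s d
  let H : ℤˣ → BD K := fun b => if b = 1 then t else f 0 + f 1 + f 2 - t
  have h1 : H 1 = t := if_pos rfl
  have h2 : H (-1) = f 0 + f 1 + f 2 - t := if_neg (by decide)
  have hy : ∀ b, Hy h f (H b) := fun b => by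
    rcases Int.units_eq_one_or b with rfl | rfl
    · exact h1 ▸ a
    · exact h2 ▸ a.other s d
  have w : h.J (H 1) (H (-1)) = 2 := by
    rw [h1, h2]; simp [a.tf, a.sq]; norm_num
  choose P u o n e using fun c b => h.line (sub_mem (hy b).g (s.G h c))
    (by simp [s.ff h, h.symm (f c) (H b), (hy b).sq, (hy b).tf])
    (by rw [map_sub, (hy b).kt s d, s.kf h]; norm_num)
  refine ⟨H, P, u, s, hy, fun b c => ?_, by rw [h1, h2, add_sub_cancel], fun t' a' => ?_, o, n, e⟩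
  · rcases Int.units_eq_one_or b with rfl | rfl <;> rcases Int.units_eq_one_or c with rfl | rfl
    · rw [(hy _).sq, if_pos rfl]
    · rw [w, if_neg (by decide)]
    · rw [h.symm, w, if_neg (by decide)]
    · rw [(hy _).sq, if_pos rfl]
  · exact (a.two s d a').elim (fun q => ⟨1, h1 ▸ q⟩) fun q => ⟨-1, h2 ▸ q⟩

/-- the difference of two opposite lines -/
def U (X : BD K) (P : Fin 3 → ℤˣ → Pl K) (c : Fin 3) : BD K := st X (P c 1) - st X (P c (-1))

/-- the three characters -/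
def zz (u : Fin 3 → ℤˣ → K) (i : Fin 3) : K :=
  u (i + 2) 1 / u (i + 2) (-1) / (u (i + 1) 1 / u (i + 1) (-1))

namespace Hex

variable {H : ℤˣ → BD K} {P : Fin 3 → ℤˣ → Pl K} {u : Fin 3 → ℤˣ → K} (x : Hex h f H P u)
include x

theorem num (c : Fin 3) (a : ℤˣ) : Num (st X (P c a) - (H a - f c)) :=
  .of_prn (by rw [← x.eq, add_sub_cancel_right]; exact dv_mem_Prn _)

theorem JJ (c c' : Fin 3) (a a' : ℤˣ) : h.J (st X (P c a)) (st X (P c' a')) =
    (if a = a' then 1 else 2) - 2 + if c = c' then 0 else 1 := by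
  rw [h.J_congr (x.num c a) (Dl.car (h.stG (x.on _ _))),
    h.J_congr' (x.num c' a') (Dl.car (sub_mem (x.hy a).g (x.cs.G h c)))]
  simp only [map_sub, LinearMap.sub_apply, x.hh, x.cs.ff h, h.symm (f c) (H a'), (x.hy _).tf]
  ring

theorem inj {c c' : Fin 3} {a a' : ℤˣ} (e : P c a = P c' a') : c = c' ∧ a = a' := by
  have := x.JJ c c' a a'
  rw [← e, x.JJ] at this
  by_cases p : c = c' <;> by_cases q : a = a' <;> simp [p, q] at this ⊢ <;> norm_num at this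

theorem val (c c' : Fin 3) (a a' : ℤˣ) :
    st X (P c a) (P c' a') = if c' = c ∧ a' = a then 1 else 0 := by
  rw [h.st_on (x.on _ _) (x.on _ _)]
  split_ifs with e
  · rw [e.1, e.2, Pl.δ_self]
  · exact Pl.δ_ne fun q => e (x.inj q)

theorem zne (i : Fin 3) : zz u i ≠ 0 := by simp [zz, x.ne]

theorem dvz (i : Fin 3) : dv (zz u i) = U X P (i + 2) - U X P (i + 1) := by
  have n := x.ne
  simp only [zz, U, ← x.eq]
  rw [dv_div (div_ne_zero (n _ _) (n _ _)) (div_ne_zero (n _ _) (n _ _)), dv_div (n _ _) (n _ _),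
    dv_div (n _ _) (n _ _)]
  abel

theorem dvz_val (i c : Fin 3) (a : ℤˣ) : dv (zz u i) (P c a) =
    (a : ℤ) * ((if c = i + 2 then 1 else 0) - if c = i + 1 then 1 else 0) := by
  simp only [x.dvz, U, Pi.sub_apply, x.val]
  rcases Int.units_eq_one_or a with rfl | rfl <;> simp
  ring

theorem pldz (i : Fin 3) : pld (zz u i) = st X (P (i + 1) 1) + st X (P (i + 2) (-1)) := by
  have g := fun c a => h.stG (x.on c a)
  have n : i + 1 ≠ i + 2 := by revert i; decide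
  refine h.pld_eq (add_mem (g _ _) (g _ _)) (add_mem (g (i + 2) 1) (g (i + 1) (-1)))
    (by rw [x.dvz, U, U]; abel) (by simp [x.JJ, n, n.symm]; norm_num) fun Q o => ?_
  have nn := fun c a => h.st_nn (x.on c a) Q
  by_cases p : Q = P (i + 1) 1 ∨ Q = P (i + 2) (-1)
  · refine .inr ⟨?_, add_nonneg (nn _ _) (nn _ _)⟩
    rcases p with rfl | rfl <;> simp [x.val, n, n.symm]
  · refine .inl ⟨?_, add_nonneg (nn _ _) (nn _ _)⟩
    rw [Pi.add_apply, h.st_on (x.on _ _) o, h.st_on (x.on _ _) o, Pl.δ_ne (not_or.1 p).1,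
      Pl.δ_ne (not_or.1 p).2, add_zero]

theorem pldf (i : Fin 3) : pld (zz u i) - f i ∈ Prn K := by
  have e : f 0 + f 1 + f 2 = f i + f (i + 1) + f (i + 2) := by
    fin_cases i <;> simp <;> abel
  have : pld (zz u i) - f i = dv (u (i + 1) 1) + dv (u (i + 2) (-1)) := by
    rw [x.pldz, ← x.eq, ← x.eq, eq_sub_of_add_eq' (x.sm.trans e)]
    abel
  exact this ▸ add_mem (dv_mem_Prn _) (dv_mem_Prn _)

theorem gen : IntermediateField.adjoin ℂ (range (zz u)) = ⊤ := by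
  have := h.gen (x := zz u 0) (y := zz u 1) (by
    rw [← h.J_eq (pld_car _) (pld_car _), h.J_congr (.of_prn (x.pldf 0)) (pld_car _),
      h.J_congr' (.of_prn (x.pldf 1)) (Dl.car (x.cs.G h 0)), x.cs.ff h, if_neg (by decide)])
  refine top_le_iff.1 (this ▸ IntermediateField.adjoin.mono _ _ _ ?_)
  rintro _ (rfl | rfl) <;> exact mem_range_self _

theorem gal (ax : Ax) (z : Dz L φ X k) (σ : Gal φ) (ρ : Perm (Fin 3)) (δ : ℤˣ)
    (e : ∀ i, Num (pb (σ.1 : K →+* K) (f i) - f (ρ i)))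
    (e' : ∀ a, Num (pb (σ.1 : K →+* K) (H a) - H (δ * a))) (c : Fin 3) (a : ℤˣ) :
    (z.gf.toGF.semi σ.2).pl (P c a) = P (ρ c) (δ * a) ∧
      pb (σ.1 : K →+* K) (st X (P c a)) = st X (P (ρ c) (δ * a)) := by
  refine pl_line ax z σ.2 (x.on _ _) (x.on _ _) ?_ ?_
  · have q := (z.gf.toGF.semi σ.2).num.2 (x.num c a)
    rw [pb_sub, pb_sub] at q
    have := ((q.add (e' a)).add (e c).neg).add (x.num (ρ c) (δ * a)).neg
    convert this using 1
    abel
  · rw [← Dl.J_st (h := h) (x.on _ _) (h.stG (x.on _ _)), x.JJ]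
    norm_num

theorem dv_gal (ax : Ax) (z : Dz L φ X k) (σ : Gal φ) (ρ : Perm (Fin 3)) (δ : ℤˣ)
    (e : ∀ i, Num (pb (σ.1 : K →+* K) (f i) - f (ρ i)))
    (e' : ∀ a, Num (pb (σ.1 : K →+* K) (H a) - H (δ * a))) (i : Fin 3) :
    dv (σ.1 (zz u i)) = (((δ * Perm.sign ρ : ℤˣ) : ℤ) : ℝ) • dv (zz u (ρ i)) := by
  have w : ∀ c, pb (σ.1 : K →+* K) (U X P c) = ((δ : ℤ) : ℝ) • U X P (ρ c) := fun c => by
    rw [U, pb_sub, (x.gal ax z σ ρ δ e e' c _).2, (x.gal ax z σ ρ δ e e' c _).2, U]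
    rcases Int.units_eq_one_or δ with rfl | rfl <;> simp
  have := (z.gf.toGF.semi σ.2).ok.pb_dv (zz u i)
  rw [x.dvz, pb_sub, w, w] at this
  rw [x.dvz, show dv (σ.1 (zz u i)) = _ from this.symm]
  rcases perm_three ρ i with ⟨p, q, r⟩ | ⟨p, q, r⟩ <;> rw [p, q, r] <;> simp [smul_sub]
  abel

end Hex

theorem p6 (ax : Ax) : P6 := by
  intro K₀ K _ _ _ _ L φ X k z d f s
  have h := z.dl ax
  obtain ⟨H, P, u, x⟩ := exists_hex (h := h) s ((Dl.J_G h.kG h.kG).trans d)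
  obtain ⟨π, e⟩ := exists_pi6 ax z s d
  obtain ⟨ρ, e'⟩ := exists_hom z.gf.toGF H (fun a b q => by
    have := h.J_congr q (Dl.car (x.hy b).g)
    rw [x.hh, x.hh, if_pos rfl] at this
    by_contra c
    simp [c] at this) fun σ a => x.all _ ((x.hy a).conj ax z s σ (π σ) (e σ))
  let δ : Gal φ →* ℤˣ := MonoidHom.mk' (fun σ => ρ σ 1) fun σ τ => by
    rw [map_mul, Perm.mul_apply, perm_units (ρ σ) (ρ τ 1)]
  have e'' : ∀ σ a, Num (pb (σ.1 : K →+* K) (H a) - H (δ σ * a)) := fun σ a =>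
    perm_units (ρ σ) a ▸ e' σ a
  have w := fun σ => x.dv_gal ax z σ (π σ) (δ σ) (e σ) (e'' σ)
  let pr : Gal φ →* Perm (Fin 3) × ℤˣ := π.prod (δ * Perm.sign.comp π)
  have fx : ∀ σ ∈ Kr pr, ∀ c a, Lies (σ : K →+* K) (P c a) (P c a) := by
    rintro σ ⟨m, q⟩ c a
    have q1 : π ⟨σ, m⟩ = 1 := congrArg Prod.fst q
    have q2 : δ ⟨σ, m⟩ * Perm.sign (π ⟨σ, m⟩) = 1 := congrArg Prod.snd q
    rw [q1, map_one, mul_one] at q2
    have := (x.gal ax z ⟨σ, m⟩ _ _ (e _) (e'' _) c a).1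
    rw [q1, q2, one_mul, Perm.one_apply] at this
    have l := (z.gf.toGF.semi m).lies (P c a)
    rwa [this] at l
  have n : ∀ i : Fin 3, i + 1 ≠ i + 2 ∧ i ≠ i + 1 ∧ i ≠ i + 2 := by decide
  refine ⟨zz u, pr, ⟨x.zne, ?_, x.gen, fun σ i => ?_, fun σ q => ?_⟩, e, fun i =>
    ⟨x.pldf i, ⟨_, x.on (i + 2) 1, _, x.on (i + 1) (-1), fun q => by simpa using (x.inj q).2, ?_, ?_,
      fun σ m => fx σ m _ _⟩, _, x.on (i + 1) 1, _, x.on (i + 2) (-1),
      fun q => by simpa using (x.inj q).2, ?_, ?_, fun σ m => fx σ m _ _⟩⟩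
  · have := x.ne
    simp only [zz, show (0 : Fin 3) + 2 = 2 from rfl, show (0 : Fin 3) + 1 = 1 from rfl,
      show (1 : Fin 3) + 2 = 0 from rfl, show (1 : Fin 3) + 1 = 2 from rfl,
      show (2 : Fin 3) + 2 = 1 from rfl, show (2 : Fin 3) + 1 = 0 from rfl]
    field_simp
    exact div_self (by simp [this])
  · obtain ⟨c, -, q⟩ := h.cst' ((map_ne_zero σ.1).2 (x.zne i)) (zpow_ne_zero _ (x.zne _))
      ((w σ i).trans (dv_zpow _ _).symm)
    exact ⟨c, q⟩
  · have a : ∀ i, π σ i = i := fun i => by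
      have := congrFun (w σ i) (P i 1)
      rw [q, Pi.smul_apply, x.dvz_val, x.dvz_val, if_neg (n i).2.1, if_neg (n i).2.2] at this
      by_contra c
      rcases (by decide : ∀ i j : Fin 3, j ≠ i → (i = j + 1 ∧ i ≠ j + 2) ∨ (i = j + 2 ∧ i ≠ j + 1))
        i _ c with r | r <;> rw [if_pos r.1, if_neg r.2] at this <;> simp at this
    refine Prod.ext (Perm.ext a) ?_
    have := congrFun (w σ 0) (P 2 1)
    rw [q, a, Pi.smul_apply, x.dvz_val] at this
    have r : ((δ σ * Perm.sign (π σ) : ℤˣ) : ℤ) = 1 := by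
      have : (((δ σ * Perm.sign (π σ) : ℤˣ) : ℤ) : ℝ) = 1 := by simpa using this.symm
      exact_mod_cast this
    exact Units.val_eq_one.1 r
  all_goals
    rw [← Int.cast_inj (α := ℝ), ← dv_apply]
    simp [dv_inv, x.dvz_val, (n i).1, (n i).1.symm]

end Vale.Agent.P287D.Fm.H6
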