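import Vale.Agent.P287D.Fm.St2
import Vale.Agent.P287D.Dp.Ns
import Vale.Agent.P287D.Dp.Sb
import Vale.Agent.P287D.Fs.Ftf
import Vale.Agent.P287D.Va.Alg
import Vale.Agent.P287D.Cv.Deg
import Vale.Agent.P287D.Hd.Cm

/-!
# P287D, block FM: lines and pencils on a del Pezzo surface
-/

set_option linter.unusedVariables false
set_option linter.unusedSectionVars false

open Set
open scoped IntermediateField

noncomputable section

namespace Vale.Agent.P287D.Fm

open Hd Dp Sf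

variable {K : Type} [Field K] [Algebra ℂ K] {X k a b c e E F F' : BD K} {P Q R : Pl K} {x y z : K}

/-- a del Pezzo surface -/
structure Dl (X k : BD K) : Prop where
  ax : Ax
  ff : FF K 2
  term : Term 1 X k
  amp : AmpOn X (-k)

theorem exists_J (R : Rows K) : ∃ J : BD K →ₗ[ℝ] BD K →ₗ[ℝ] ℝ, (∀ a b, J a b = J b a) ∧
    ∀ a ∈ Car K, ∀ b ∈ Car K, J a b = I2 a b := by
  obtain ⟨p, hp⟩ := (Car K).subtype.exists_leftInverse_of_injective (Car K).ker_subtype
  have q : ∀ a (h : a ∈ Car K), p a = ⟨a, h⟩ := fun a h => LinearMap.congr_fun hp ⟨a, h⟩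
  exact ⟨(Cm.bf R).compl₁₂ p p, fun a b => Cm.bf_symm R _ _, fun a ha b hb => by
    rw [LinearMap.compl₁₂_apply, q a ha, q b hb]; rfl⟩

namespace Dl

variable (h : Dl X k)

theorem rows (h : Dl X k) : Rows K := h.ax.rows K h.ff

/-- the intersection form -/
def J : BD K →ₗ[ℝ] BD K →ₗ[ℝ] ℝ := (exists_J h.rows).choose

/-- the integral classes of the surface -/
def G : AddSubgroup (BD K) where
  carrier := {β | β ∈ CarZ K ∧ Det X β}
  add_mem' a b := ⟨add_mem a.1 b.1, h.rows.det_add a.2 b.2 (CarZ.car a.1) (CarZ.car b.1)⟩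
  zero_mem' := ⟨zero_mem _, fun P _ => h.rows.zero P⟩
  neg_mem' a := ⟨neg_mem a.1, fun P e => by rw [h.rows.neg (CarZ.car a.1), a.2 P e, neg_zero]⟩

theorem symm (a b : BD K) : h.J a b = h.J b a := (exists_J h.rows).choose_spec.1 a b

theorem J_eq (ha : a ∈ Car K) (hb : b ∈ Car K) : h.J a b = I2 a b :=
  (exists_J h.rows).choose_spec.2 a ha b hb

variable {h}

theorem car (ha : a ∈ h.G) : a ∈ Car K := CarZ.car ha.1

theorem J_G (ha : a ∈ h.G) (hb : b ∈ h.G) : h.J a b = I2 a b := h.J_eq (car ha) (car hb)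

theorem J_int (ha : a ∈ h.G) (hb : b ∈ h.G) : ∃ z : ℤ, h.J a b = z :=
  J_G ha hb ▸ h.ax.I2_int h.ff ha.1 hb.1

theorem J_st (o : On 1 X P) (ha : a ∈ h.G) : h.J a (st X P) = dg a P := by
  rw [h.J_eq (car ha) (h.ax.st_car h.ff h.term o), h.ax.I2_st' h.ff h.term o (car ha) ha.2]

variable (h)

theorem kG : k ∈ h.G := ⟨h.ax.kZ h.ff h.term, h.ax.kD h.ff h.term⟩

theorem stG (o : On 1 X P) : st X P ∈ h.G :=
  ⟨h.ax.st_carZ h.ff h.term o, h.ax.st_det h.ff h.term o⟩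

theorem dvG (z : K) : dv z ∈ h.G := ⟨dv_mem_CarZ z, fun P _ => h.rows.prn _ (dv_mem_Prn z) P⟩

theorem conG (n : Con X k a) : a ∈ h.G := ⟨n.car, n.det⟩

theorem con_iff : Con X k a ↔ a ∈ h.G ∧ h.J a a = 0 ∧ h.J k a = -2 :=
  ⟨fun n => ⟨h.conG n, (J_G (h.conG n) (h.conG n)).trans n.sq, (J_G h.kG (h.conG n)).trans n.kf⟩,
    fun n => ⟨n.1.1, n.1.2, (J_G n.1 n.1).symm.trans n.2.1, (J_G h.kG n.1).symm.trans n.2.2⟩⟩

theorem J_num (n : Num a) (hb : b ∈ Car K) : h.J a b = 0 :=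
  (h.J_eq n.car hb).trans (h.ax.num_l h.ff n hb)

theorem J_prn (n : a ∈ Prn K) (hb : b ∈ Car K) : h.J a b = 0 := h.J_num (.of_prn n) hb

theorem J_congr (n : Num (a - b)) (hc : c ∈ Car K) : h.J a c = h.J b c := by
  have := h.J_num n hc
  rwa [map_sub, LinearMap.sub_apply, sub_eq_zero] at this

theorem J_congr' (n : Num (a - b)) (hc : c ∈ Car K) : h.J c a = h.J c b := by
  rw [h.symm, h.J_congr n hc, h.symm]

include h

theorem big : Big (-k) := h.amp.big_iff.1 h.term.big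

theorem ft : FT K 1 := Fs.ft_of h.term h.amp.nef h.big

theorem prn (n : Num a) : a ∈ Prn K := h.ax.ftn.num 1 K h.ff h.ft a n

theorem pos : 0 < h.J k k := by
  have := h.ax.sq_pos h.ff h.amp.smp h.big
  rw [← J_G (neg_mem h.kG) (neg_mem h.kG)] at this
  simpa using this

theorem hodge (ha : a ∈ Car K) : h.J k k * h.J a a ≤ h.J k a ^ 2 := by
  have := h.pos
  rw [J_G h.kG h.kG] at this
  rw [J_G h.kG h.kG, h.J_eq ha ha, h.J_eq (car h.kG) ha]
  exact h.rows.hodge (car h.kG) ha this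

theorem num_of (ha : a ∈ Car K) (e : h.J k a = 0) (e' : 0 ≤ h.J a a) : Num a :=
  h.ax.num_of h.ff (car h.kG) ha (J_G h.kG h.kG ▸ h.pos) (h.J_eq (car h.kG) ha ▸ e)
    (h.J_eq ha ha ▸ e')

theorem deg (o : On 1 X P) : h.J k (st X P) ≤ -1 := by
  have p := Cm.amp_pos h.rows h.term.smp h.amp o
  obtain ⟨z, e⟩ := J_int h.kG (h.stG o)
  rw [h.rows.neg (car h.kG), ← J_st o h.kG, e] at p
  have : z < 0 := by exact_mod_cast neg_pos.1 p
  rw [e]
  exact_mod_cast (by omega : z ≤ -1)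

theorem adj (o : On 1 X P) : -2 ≤ h.J (st X P) (st X P) + h.J k (st X P) := by
  rw [J_st o (h.stG o), J_st o h.kG]
  exact h.ax.adj_le h.ff h.term o

theorem meet (o : On 1 X P) (o' : On 1 X Q) (n : P ≠ Q) : 0 ≤ h.J (st X P) (st X Q) :=
  J_st o' (h.stG o) ▸ h.ax.st_meet h.ff h.term o o' n.symm

theorem eq_of (o : On 1 X P) (o' : On 1 X Q) (n : h.J (st X P) (st X Q) < 0) : P = Q :=
  by_contra fun e => n.not_ge (h.meet o o' e)

theorem nn_of (ha : a ∈ h.G) (e : ∀ P, On 1 X P → 0 ≤ a P) : 0 ≤ a :=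
  h.ax.nn_of h.ff h.term.smp h.term.big (car ha) ha.2 e

theorem uq (ha : a ∈ h.G) (hb : b ∈ h.G) (e : ∀ P, On 1 X P → a P = b P) : a = b :=
  h.ax.uq h.ff h.term.smp h.term.big (car ha) (car hb) ha.2 hb.2 e

theorem st_on (o : On 1 X P) (o' : On 1 X Q) : st X P Q = P.δ Q := h.ax.st_on h.ff h.term o o'

theorem st_nn (o : On 1 X P) : 0 ≤ st X P := h.ax.st_nn h.ff h.term o

theorem deg_nn (hE : E ∈ h.G) (p : 0 ≤ E) : h.J k E ≤ 0 := by
  have := h.rows.eff_nn (.of_nonneg p) (h.rows.isb _ (car hE)) (h.rows.nn_smp h.amp.smp)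
  rw [← J_G hE (neg_mem h.kG), map_neg, h.symm] at this
  linarith

theorem peel (hE : E ∈ h.G) (p : 0 ≤ E) (n : E ≠ 0) : ∃ P, On 1 X P ∧ 0 ≤ E - st X P := by
  obtain ⟨P, o, q⟩ : ∃ P, On 1 X P ∧ E P ≠ 0 := by
    by_contra c
    exact n (h.uq hE (zero_mem _) fun P o => by_contra fun q => c ⟨P, o, q⟩)
  refine ⟨P, o, h.nn_of (sub_mem hE (h.stG o)) fun Q o' => ?_⟩
  rw [Pi.sub_apply, h.st_on o o']
  by_cases r : Q = P
  · obtain ⟨z, w⟩ := CarZ.int hE.1 P
    have u0 : (0 : ℝ) < E P := (p P).lt_of_ne' q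
    have u : 0 < z := by exact_mod_cast w ▸ u0
    have : (1 : ℝ) ≤ z := by exact_mod_cast u
    rw [r, P.δ_self, w, sub_nonneg]
    exact this
  · rw [Pl.δ_ne r, sub_zero]
    exact p Q

theorem zero_of (hE : E ∈ h.G) (p : 0 ≤ E) (q : -1 < h.J k E) : E = 0 := by
  by_contra n
  obtain ⟨P, o, r⟩ := h.peel hE p n
  have := h.deg_nn (sub_mem hE (h.stG o)) r
  have := h.deg o
  simp only [map_sub] at *
  linarith

theorem one_of (hE : E ∈ h.G) (p : 0 ≤ E) (q : h.J k E = -1) : ∃ P, On 1 X P ∧ E = st X P := by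
  obtain ⟨P, o, r⟩ := h.peel hE p (by rintro rfl; simp at q)
  have := h.deg o
  exact ⟨P, o, sub_eq_zero.1 (h.zero_of (sub_mem hE (h.stG o)) r (by rw [map_sub]; linarith))⟩

theorem J_cn (ha : a ∈ h.G) (hb : b ∈ h.G) : I2 (cn K 2 + a) b = h.J (k + a) b := by
  have R := h.rows
  rw [R.add_l R.cnb (R.isb _ (car ha)) (car hb), h.ax.I2_cn h.ff h.term hb.2, map_add,
    LinearMap.add_apply, J_G ha hb, J_G h.kG hb]

/-- Riemann-Roch, existence -/
theorem sec (ha : a ∈ h.G) (p : h.J k a < h.J k k) (q : -2 < h.J a a - h.J k a) :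
    ∃ s, s ≠ 0 ∧ 0 ≤ dv s + a := by
  have R := h.rows
  obtain ⟨χ, r, -, e⟩ := h.ax.rr2 K h.ff
  have u := r a ha.1 (-k) h.amp.nef (by
    rw [sub_eq_add_neg, h.J_cn (neg_mem ha) (neg_mem h.kG)]
    simp only [map_add, map_neg, LinearMap.add_apply, LinearMap.neg_apply, h.symm a k]
    linarith)
  rw [e h.ft, ← neg_sub, R.neg_l (isB_sub R.cnb (R.isb _ (car ha))) (car ha), sub_eq_add_neg,
    h.J_cn (neg_mem ha) ha] at u
  simp only [map_add, map_neg, LinearMap.add_apply, LinearMap.neg_apply, Int.cast_one] at u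
  have : 0 < h0 a := by exact_mod_cast (by linarith : (0 : ℝ) < h0 a)
  have := Module.nontrivial_of_finrank_pos this
  obtain ⟨s, n⟩ := exists_ne (0 : H0 a)
  have n' : s.1 ≠ 0 := fun c => n (Subtype.ext c)
  exact ⟨s, n', (mem_H0.1 s.2).resolve_left n'⟩

/-- the curve in a class of lines -/
theorem line (he : e ∈ h.G) (p : h.J e e = -1) (q : h.J k e = -1) :
    ∃ P s, On 1 X P ∧ s ≠ 0 ∧ dv s + e = st X P := by
  obtain ⟨s, n, r⟩ := h.sec he (by linarith [h.pos]) (by linarith)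
  obtain ⟨P, o, w⟩ := h.one_of (add_mem (h.dvG s) he) r (by
    rw [map_add, q, h.symm, h.J_prn (dv_mem_Prn s) (car h.kG), zero_add])
  exact ⟨P, s, o, n, w⟩

/-- two disjoint lines -/
theorem two (he : e ∈ h.G) (p : h.J e e = -2) (q : h.J k e = -2) :
    ∃ a ∈ h.G, h.J a a = -1 ∧ h.J k a = -1 ∧ h.J a e = -1 ∧
      ∀ b ∈ Car K, (∀ P, On 1 X P → 0 ≤ h.J b (st X P)) → h.J b e = 0 → h.J b a = 0 := by
  obtain ⟨s, n, r⟩ := h.sec he (by linarith [h.pos]) (by linarith)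
  have g := add_mem (h.dvG s) he
  have m : Num (dv s + e - e) := .of_prn (by simpa using dv_mem_Prn s)
  have q' := (h.J_congr' m (car h.kG)).trans q
  have p' := ((h.J_congr m (car g)).trans (h.J_congr' m (car he))).trans p
  have t : ∀ b ∈ Car K, h.J b e = h.J b (dv s + e) := fun b hb => (h.J_congr' m hb).symm
  generalize dv s + e = E at *
  obtain ⟨P, o, u⟩ := h.peel g r (by rintro rfl; simp at q')
  have g' := sub_mem g (h.stG o)
  have d := h.deg o
  have j := h.adj o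
  obtain ⟨z, hz⟩ := J_int h.kG (h.stG o)
  have d' := h.deg_nn g' u
  rw [map_sub, q', hz] at d'
  have : z = -2 ∨ z = -1 := by
    have : z ≤ -1 := by exact_mod_cast hz ▸ d
    have : -2 ≤ z := by exact_mod_cast (by linarith : (-2 : ℝ) ≤ z)
    omega
  rcases this with rfl | rfl
  · have := sub_eq_zero.1 (h.zero_of g' u (by rw [map_sub, q', hz]; norm_num))
    rw [← this, p', q'] at j
    norm_num at j
  obtain ⟨Q, o', w⟩ := h.one_of g' u (by rw [map_sub, q', hz]; norm_num)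
  obtain rfl : E = st X P + st X Q := by rw [← w, add_sub_cancel]
  have j' := h.adj o'
  simp only [map_add, LinearMap.add_apply, h.symm (st X Q) (st X P)] at p' q'
  push_cast at hz
  have n : P ≠ Q := by
    rintro rfl
    obtain ⟨y, hy⟩ := J_int (h.stG o) (h.stG o)
    have : 4 * y = -2 := by exact_mod_cast (by linarith : (4 : ℝ) * y = -2)
    omega
  have := h.meet o o' n
  refine ⟨_, h.stG o, by linarith, hz, by rw [t _ (car (h.stG o)), map_add]; linarith,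
    fun b hb v w => ?_⟩
  rw [t b hb, map_add] at w
  linarith [v P o, v Q o']

/-- a fibre with two components is nef -/
theorem nef_fib (o : On 1 X P) (o' : On 1 X Q) (p : h.J (st X P + st X Q) (st X P) = 0)
    (q : h.J (st X P + st X Q) (st X Q) = 0) : Nef (st X P + st X Q) := by
  have g := add_mem (h.stG o) (h.stG o')
  refine h.ax.nak K h.ff _ (car g) fun R => ?_
  rw [I2_δ]
  by_cases r : On 1 X R
  · rw [← J_st r g]
    by_cases u : P = R
    · exact u ▸ p.ge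
    by_cases v : Q = R
    · exact v ▸ q.ge
    simpa using add_nonneg (h.meet o r u) (h.meet o' r v)
  · exact ((h.ax.det_iff h.ff h.term.smp).1 g.2 R r).ge

/-- Riemann-Roch for a pencil -/
theorem h0_le (n : Con X k F) (p : Nef F) : h0 F ≤ 2 := by
  obtain ⟨g, u, v⟩ := h.con_iff.1 n
  obtain ⟨χ, -, r, e⟩ := h.ax.rr2 K h.ff
  have g' := add_mem g (neg_mem h.kG)
  have w := r _ g'.1 (p.add h.amp.nef) (by rw [add_comm]; exact h.big.add_nef p)
  rw [e h.ft, h.J_cn g' g'] at w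
  simp only [map_add, map_neg, LinearMap.add_apply, LinearMap.neg_apply, h.symm F k, u, v] at w
  have := h.ax.mod.fin 1 K h.ff _ (isB_add h.rows.cnb (h.rows.isb _ (car g')))
  have l : h0 F ≤ h0 (cn K 2 + (F + -k)) := h0_mono fun P => by
    have := Fs.term_nn h.term P
    simp only [dsc, Pi.sub_apply, Pi.add_apply, Pi.neg_apply] at this ⊢
    linarith
  exact l.trans (by exact_mod_cast (by rw [w]; push_cast; linarith :
    (h0 (cn K 2 + (F + -k)) : ℝ) ≤ 2))

/-- disjoint fibres -/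
theorem pld_eq (g : F ∈ h.G) (g' : F' ∈ h.G) (e : dv z = F' - F) (s : h.J F F = 0)
    (d : ∀ P, On 1 X P → (F P = 0 ∧ 0 ≤ F' P) ∨ (F' P = 0 ∧ 0 ≤ F P)) : pld z = F := by
  have t : ∀ P, On 1 X P → F P = pld z P := fun P o => by
    rw [pld_apply, ← dv_apply, e, Pi.sub_apply]
    rcases d P o with ⟨u, v⟩ | ⟨u, v⟩
    · rw [u, max_eq_left (by linarith)]
    · rw [u, max_eq_right (by linarith)]; ring
  have c := pld_car z
  have j := h.ax.pj_eq h.ff h.term (h.rows.isb _ c) (car g) g.2 t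
  have n := (h.ax.pj_sq h.ff h.term c).2 (by
    rw [j, ← J_G g g, s]
    exact h.rows.eff_nn (smp_pld z).eff (h.rows.isb _ c) (h.rows.nn_smp (smp_pld z)))
  rw [j] at n
  exact h.uq ⟨pld_carZ z, fun P q => by rw [h.ax.dg_congr h.ff (car g) n, g.2 P q]⟩ g
    fun P o => (t P o).symm

theorem cst (n : z ≠ 0) (e : dv z = 0) : ∃ c : ℂ, c ≠ 0 ∧ z = algebraMap ℂ K c := by
  obtain ⟨c, rfl⟩ := Fs.const_of_nonneg h.ff e.ge
  exact ⟨c, by simpa using n, rfl⟩

theorem cst' (n : x ≠ 0) (n' : y ≠ 0) (e : dv x = dv y) :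
    ∃ c : ℂ, c ≠ 0 ∧ x = algebraMap ℂ K c * y := by
  obtain ⟨c, u, v⟩ := h.cst (div_ne_zero n n') (by rw [dv_div n n', e, sub_self])
  exact ⟨c, u, by rw [← v, div_mul_cancel₀ _ n']⟩

/-- three members of a pencil -/
theorem pencil (n : Con X k F) (p : Nef F) (p0 : 0 ≤ F) (hx : x ≠ 0) (hy : y ≠ 0)
    (sx : 0 ≤ dv x + F) (sy : 0 ≤ dv y + F) (x0 : dv x ≠ 0) (y0 : dv y ≠ 0) (xy : dv x ≠ dv y) :
    ∃ z, z ≠ 0 ∧ 1 - z ≠ 0 ∧ dv z = dv x ∧ dv (1 - z) = dv y := by
  have := h.ax.mod.fin 1 K h.ff _ (h.rows.isb _ (CarZ.car n.car))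
  let v : Fin 3 → H0 F := ![⟨1, mem_H0.2 (sec_one.2 p0)⟩, ⟨x, mem_H0.2 (.inr sx)⟩,
    ⟨y, mem_H0.2 (.inr sy)⟩]
  have l : ¬ LinearIndependent ℂ v := fun l => by
    have := l.fintype_card_le_finrank.trans (h.h0_le n p)
    simp at this
  obtain ⟨g, s, i, ne⟩ := Fintype.not_linearIndependent_iff.1 l
  have s' : algebraMap ℂ K (g 0) + g 1 • x + g 2 • y = 0 := by
    simpa [Fin.sum_univ_three, v, Algebra.algebraMap_eq_smul_one] using congrArg Subtype.val s
  have k1 : ∀ {c d : ℂ} {w : K}, w ≠ 0 → dv w ≠ 0 → algebraMap ℂ K c + d • w = 0 →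
      c = 0 ∧ d = 0 := fun {c d w} a b e => by
    by_cases q : d = 0
    · exact ⟨by simpa [q] using e, q⟩
    · exact absurd (by rw [← dv_smul q, eq_neg_of_add_eq_zero_right e, dv_neg, dv_const]) b
  have n1 : g 1 ≠ 0 := fun q => by
    have := k1 hy y0 (by simpa [q] using s')
    fin_cases i <;> simp_all
  have n2 : g 2 ≠ 0 := fun q => by
    have := k1 hx x0 (by simpa [q] using s')
    exact n1 this.2
  have n0 : g 0 ≠ 0 := fun q => xy (by
    rw [q, map_zero, zero_add] at s'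
    rw [← dv_smul n1, eq_neg_of_add_eq_zero_left s', dv_neg, dv_smul n2])
  have e : 1 - (-(g 1 / g 0)) • x = (-(g 2 / g 0)) • y := by
    have q : algebraMap ℂ K (g 0) ≠ 0 := by simpa using n0
    simp only [Algebra.smul_def, map_neg, map_div₀] at s' ⊢
    field_simp
    linear_combination s'
  have m1 := neg_ne_zero.2 (div_ne_zero n1 n0)
  have m2 := neg_ne_zero.2 (div_ne_zero n2 n0)
  exact ⟨_, smul_ne_zero m1 hx, e ▸ smul_ne_zero m2 hy, dv_smul m1 x, e ▸ dv_smul m2 y⟩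

theorem pencil_uq (hx : x ≠ 0) (hy : y ≠ 0) (hx' : 1 - x ≠ 0) (hy' : 1 - y ≠ 0) (y0 : dv y ≠ 0)
    (e : dv x = dv y) (e' : dv (1 - x) = dv (1 - y)) : x = y := by
  obtain ⟨c, -, rfl⟩ := h.cst' hx hy e
  obtain ⟨d, -, u⟩ := h.cst' hx' hy' e'
  by_cases q : c - d = 0
  · have r : algebraMap ℂ K d = 1 := by
      rw [sub_eq_zero.1 q] at u
      linear_combination -u
    rw [sub_eq_zero.1 q, r, one_mul]
  · refine absurd ?_ y0
    rw [← dv_smul q, ← dv_const (1 - d), Algebra.smul_def, map_sub, map_sub, map_one]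
    congr 1
    linear_combination -u

/-- two pencils which meet once generate the field -/
theorem gen (e : I2 (pld x) (pld y) = 1) : ℂ⟮x, y⟯ = ⊤ := by
  obtain ⟨m, le, hm⟩ := h.ax.ffs.sub 2 K h.ff ℂ⟮x, y⟯
  let v : Fin 2 → BD ℂ⟮x, y⟯ := ![pld ⟨x, IntermediateField.subset_adjoin _ _ (by simp)⟩,
    pld ⟨y, IntermediateField.subset_adjoin _ _ (by simp)⟩]
  have ok : Ok (inc ℂ⟮x, y⟯) := (Cst.of_lin (φ := inc ℂ⟮x, y⟯) fun _ => rfl).ok hm h.ff
  have w : (fun j => pb (inc ℂ⟮x, y⟯) (v j)) = ![pld x, pld y] := by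
    funext j
    fin_cases j <;> exact ok.pb_pld _
  have c : ∀ j, v j ∈ CarZ ℂ⟮x, y⟯ := fun j => by fin_cases j <;> exact pld_carZ _
  rcases le.eq_or_lt with rfl | lt
  · have R := h.ax.rows _ hm
    have d := h.ax.pbk.deg 2 _ K hm h.ff v (fun j => R.isb _ (CarZ.car (c j)))
      fun j _ => CarZ.car (c j)
    obtain ⟨z, hz⟩ := h.ax.I2_int hm (c 0) (c 1)
    rw [w, show I 2 K ![pld x, pld y] = 1 from e, show I 2 _ v = z from hz] at d
    have : (Module.finrank ℂ⟮x, y⟯ K : ℤ) * z = 1 := by exact_mod_cast d.symm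
    exact IntermediateField.finrank_eq_one_iff_eq_top.1
      (by exact_mod_cast Int.eq_one_of_mul_eq_one_right (by positivity) this)
  · have := h.ax.pbk.low m 2 _ K (inc ℂ⟮x, y⟯) hm h.ff (fun _ => rfl) ![pld x, pld y] Finset.univ
      (by simpa using lt) (fun j _ => by fin_cases j <;> exact pld_car _)
      fun j _ => ⟨v j, CarZ.car (c j), (congrFun w j).symm⟩
    exact absurd (e.symm.trans this) one_ne_zero

end Dl

theorem Dz.dl {K₀ : Type} [Field K₀] [Algebra ℂ K₀] {L : IntermediateField ℂ K₀} {φ : K₀ →+* K}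
    (h : Dz L φ X k) (ax : Ax) : Dl X k := ⟨ax, h.ff, h.term, h.amp⟩

theorem upa (ax : Ax) : UPA := by
  classical
  intro K₀ K _ _ _ _ L φ X k d f z n e P t
  have h := d.dl ax
  have m : z ∈ P.ring := t z (IntermediateField.mem_adjoin_simple_self _ _)
  have nc : ∀ c : ℂ, z - algebraMap ℂ K c ≠ 0 := fun c q => by
    rw [sub_eq_zero.1 q, pld_const, zero_sub, neg_mem_iff] at e
    have := (h.con_iff.1 n).2.2
    rw [h.symm, h.J_prn e (Dl.car h.kG)] at this
    norm_num at this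
  have hP := ax.ffs.rsd 1 K d.ff P
  have r : res P (pld z) = mx {1, P.rd z} := by
    have : P.mz {1, z} = 0 := by
      have := pld_eq_zero.2 m
      rw [← mx_pld, mx_apply] at this
      exact_mod_cast this
    rw [← mx_pld, ax.res.sys 1 K d.ff, Pl.rs, this]
    simp [rd_one]
  have q : 0 < dg (pld z) P := by
    have hc : ∀ c : ℂ, P.rd z ≠ algebraMap ℂ P.κ c := fun c q => by
      have a : z - algebraMap ℂ K c ∈ ℂ⟮z⟯ :=
        sub_mem (IntermediateField.mem_adjoin_simple_self _ _) (IntermediateField.algebraMap_mem _ c)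
      refine Un.rd_ne ⟨nc c, P297Z.Pl.ord_unit _ (t _ a) (t _ (inv_mem a))⟩ ?_
      have w : P.rd (algebraMap ℂ K (-c)) = algebraMap ℂ P.κ (-c) := rd_of (P.con _)
      rw [sub_eq_add_neg, ← map_neg, rd_add m (P.con _), q, w, map_neg, add_neg_cancel]
    rw [dg, r, mx_pld]
    refine (Cv.I1_nonneg (pld_nonneg _)).lt_of_ne' fun o => ?_
    have := Cv.eq_zero_of_I1 hP (pld_car _) (pld_nonneg _) o.le
    obtain ⟨c, e⟩ := const_of_ring hP fun R => pld_eq_zero.1 (congrFun this R)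
    exact hc c e.symm
  rw [h.rows.congr (CarZ.car n.car) e] at q
  exact by_contra fun o => q.ne' ((ax.det_iff d.ff d.term.smp).1 n.det P o)

end Vale.Agent.P287D.Fm
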