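import Vale.Agent.P287D.Dp.Ns
import Vale.Agent.P287D.Dp.Sb
import Vale.Agent.P287D.Fs.Ftf
import Vale.Agent.P287D.Cv.Deg
import Vale.Agent.P287D.Hd.Cm
import Vale.Agent.P287D.Gf.Rs
import Vale.Agent.P287D.Gf.Six

/-!
# P287D, block FM: lines and functions on a del Pezzo surface
-/

set_option linter.all false

open Set

noncomputable section

namespace Vale.Agent.P287D.Fm.S5

open Dp Sf

variable {K : Type} [Field K] [Algebra ℂ K] {X k D G F₁ F₂ : BD K} {P P' : Pl K} {u v : K}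

theorem mem_of_rd (h : P.rd u = 1) : u ∈ P.ring :=
  by_contra fun e => zero_ne_one ((show P.rd u = 0 from dif_neg e).symm.trans h)

theorem rd_mul (h : P.rd u = 1) (h' : P.rd v = 1) : P.rd (u * v) = 1 := by
  rw [Hd.rd_mul (mem_of_rd h) (mem_of_rd h'), h, h', one_mul]

theorem rd_inv (h : P.rd u = 1) : P.rd u⁻¹ = 1 := by
  rw [(Hd.Un.of_rd (mem_of_rd h) (h ▸ one_ne_zero)).rd_inv, h, inv_one]

theorem rd_sub (h : 0 < P.ord u) : P.rd (1 - u) = 1 := by
  have u0 : u ≠ 0 := fun e => by simp [e] at h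
  have m := (P297Z.Pl.ord_nonneg_iff _ u0).1 h.le
  have := Hd.rd_add (sub_mem (one_mem _) m) m
  rwa [sub_add_cancel, Hd.rd_one, (Hd.rd_eq_zero m).2 (.inr h), add_zero, eq_comm] at this

theorem ord_sub (h : P.rd u = 1) (n : 1 - u ≠ 0) : 0 < P.ord (1 - u) := by
  have m := mem_of_rd h
  have := Hd.rd_add (sub_mem (one_mem _) m) m
  rw [sub_add_cancel, Hd.rd_one, h, eq_comm, add_eq_right] at this
  exact ((Hd.rd_eq_zero (sub_mem (one_mem _) m)).1 this).resolve_left n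

/-- a function is determined by its divisor and one value -/
theorem un {n : ℕ} (hK : FF K n) (u0 : u ≠ 0) (v0 : v ≠ 0) (e : dv u = dv v) (a : P.rd u = 1)
    (b : P.rd v = 1) : u = v := by
  obtain ⟨c, hc⟩ := Fs.const_of_nonneg hK (f := u * v⁻¹) (by
    rw [dv_mul u0 (inv_ne_zero v0), dv_inv, e, add_neg_cancel])
  have := rd_mul a (rd_inv b)
  rw [← hc, Gx.rd_cst, ← map_one (algebraMap ℂ P.κ)] at this
  rw [(algebraMap ℂ P.κ).injective this, map_one] at hc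
  exact (mul_inv_eq_one₀ v0).1 hc.symm

theorem det_dv (R : Rows K) (u : K) : Det X (dv u) := fun P _ => R.prn _ (dv_mem_Prn u) P

variable (ax : Ax) (hK : FF K 2)
include ax hK

/-- two pencils which meet once generate the field -/
theorem gen {L : IntermediateField ℂ K} (hu : u ∈ L) (hv : v ∈ L) (e : I2 (pld u) (pld v) = 1) :
    L = ⊤ := by
  have ok := hK.ok_sub L
  obtain ⟨a, rfl⟩ : ∃ a : L, algebraMap L K a = u := ⟨⟨u, hu⟩, rfl⟩
  obtain ⟨b, rfl⟩ : ∃ a : L, algebraMap L K a = v := ⟨⟨v, hv⟩, rfl⟩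
  have c : ∀ j, ![pld a, pld b] j ∈ Car L := Fin.forall_fin_two.2 ⟨pld_car a, pld_car b⟩
  have q : ![pld (algebraMap L K a), pld (algebraMap L K b)] =
      fun j => pb (algebraMap L K) (![pld a, pld b] j) :=
    funext (Fin.forall_fin_two.2 ⟨(Gx.pb_pld ok a).symm, (Gx.pb_pld ok b).symm⟩)
  rw [I2, q] at e
  obtain ⟨m, hm, hL⟩ := ax.ffs.sub 2 K hK L
  rcases hm.lt_or_eq with hm | rfl
  · exact absurd (e.symm.trans (ax.pbk.low m 2 L K (algebraMap L K) hL hK (fun _ => rfl) _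
      Finset.univ (by simpa using hm) (fun j _ => ok.car (c j)) fun j _ => ⟨_, c j, rfl⟩))
      one_ne_zero
  obtain ⟨z, hz⟩ := ax.I2_int hL (pld_carZ a) (pld_carZ b)
  rw [ax.pbk.deg 2 L K hL hK _ (fun j => (ax.rows L hL).isb _ (c j)) fun j _ => c j,
    show I 2 L ![pld a, pld b] = z from hz] at e
  have : (Module.finrank L K : ℤ) * z = 1 := by exact_mod_cast e
  exact IntermediateField.finrank_eq_one_iff_eq_top.1
    (by exact_mod_cast Int.eq_one_of_mul_eq_one_right (Nat.cast_nonneg _) this)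

variable (hX : Term 1 X k)
include hX

/-- the poles of a pencil without base points -/
theorem pld_num (e : dv u = F₁ - F₂) (h₁ : 0 ≤ F₁) (h₂ : 0 ≤ F₂) (c : F₂ ∈ Car K) (d : Det X F₂)
    (s : I2 F₂ F₂ = 0) (o : ∀ P, On 1 X P → F₁ P = 0 ∨ F₂ P = 0) : Num (pld u - F₂) := by
  have R := ax.rows K hK
  have p : pj X (pld u) = F₂ := ax.pj_eq hK hX (R.isb _ (pld_car u)) c d fun P h => by
    have a : (P.ord u : ℝ) = F₁ P - F₂ P := congrFun e P
    have a₁ : 0 ≤ F₁ P := h₁ P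
    have a₂ : 0 ≤ F₂ P := h₂ P
    rw [pld_apply, a]
    rcases o P h with b | b <;> simp [b, a₁, a₂]
  have := (ax.pj_sq hK hX (pld_car u)).2
  rw [p, s] at this
  exact this (R.eff_nn (smp_pld u).eff (R.isb _ (pld_car u)) (R.nn_smp (smp_pld u)))

theorem sub_st (c : G ∈ CarZ K) (d : Det X G) (h : 0 ≤ G) (o : On 1 X P) (n : G P ≠ 0) :
    0 ≤ G - st X P := by
  refine ax.nn_of hK hX.smp hX.big (sub_mem (CarZ.car c) (ax.st_car hK hX o))
    ((ax.rows K hK).det_sub d (ax.st_det hK hX o) (CarZ.car c) (ax.st_car hK hX o)) fun Q o' => ?_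
  by_cases e : Q = P
  · obtain ⟨z, hz⟩ := CarZ.int c P
    have a : (0 : ℝ) < z := hz ▸ lt_of_le_of_ne (h P) n.symm
    have b : 1 ≤ z := by exact_mod_cast a
    rw [e, Pi.sub_apply, ax.st_self hK hX o, hz, sub_nonneg]
    exact_mod_cast b
  · rw [Pi.sub_apply, ax.st_ne hK hX o o' e, sub_zero]
    exact h Q

variable (amp : AmpOn X (-k))
include amp

theorem ft : FT K 1 := Fs.ft_of hX amp.nef (amp.big_iff.1 hX.big)

theorem rr (c : D ∈ CarZ K) (d : Det X D) (e : 0 ≤ I2 D D - I2 k D) (l : I2 k D < I2 k k) :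
    ∃ u : K, u ≠ 0 ∧ 0 ≤ dv u + D := by
  have R := ax.rows K hK
  have kc := ax.kC hK hX
  have i := R.isb _ (CarZ.car c)
  obtain ⟨χ, a, -, b⟩ := ax.rr2 K hK
  have := a D c _ amp.nef (by
    rw [R.neg_r (isB_sub R.cnb i) kc, R.sub_l R.cnb i kc, ax.I2_cn hK hX (ax.kD hK hX),
      R.symm D (CarZ.car c) k kc]
    linarith)
  rw [b (ft ax hK hX amp), R.sub_l i R.cnb (CarZ.car c), ax.I2_cn hK hX d] at this
  have q : 0 < h0 D := Nat.cast_pos (α := ℝ).1 (by push_cast at this; linarith)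
  obtain ⟨f, hf, f0⟩ := Submodule.exists_mem_ne_zero_of_ne_bot (p := H0 D) fun e => by
    rw [h0, e, finrank_bot] at q
    exact lt_irrefl _ q
  exact ⟨f, f0, (mem_H0.1 hf).resolve_left f0⟩

theorem le_deg (c : G ∈ Car K) (h : 0 ≤ G) (P : Pl K) : G P * dg (-k) P ≤ -I2 k G := by
  have R := ax.rows K hK
  have kc := ax.kC hK hX
  rw [R.symm k kc G c, ← R.neg_r (R.isb _ c) kc]
  exact R.le_I2 (R.isb _ c) (neg_mem kc)
    (fun Q => mul_nonneg (h Q) ((R.nn_nef amp.nef).nn Q)) P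

theorem eff_zero (c : G ∈ Car K) (d : Det X G) (h : 0 ≤ G) (e : 0 ≤ I2 k G) : G = 0 := by
  have R := ax.rows K hK
  refine ax.uq hK hX.smp hX.big c (zero_mem _) d (fun P _ => R.zero P) fun P o => ?_
  have a := le_deg ax hK hX amp c h P
  have b := Cm.amp_pos R hX.smp amp o
  exact le_antisymm (show G P ≤ 0 by nlinarith) (h P)

/-- a numerically trivial integral class is the divisor of a function -/
theorem fn (p : 0 < I2 k k) (c : D ∈ CarZ K) (d : Det X D) (n : Num D) :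
    ∃ u : K, u ≠ 0 ∧ dv u = D := by
  have R := ax.rows K hK
  have kc := ax.kC hK hX
  obtain ⟨u, u0, h⟩ := rr ax hK hX amp c d (by rw [ax.num_r hK _ n, ax.num_r hK _ n, sub_zero])
    (by rwa [ax.num_r hK _ n])
  have := eff_zero ax hK hX amp (add_mem (dv_mem_Car u) n.car)
    (R.det_add (det_dv R u) d (dv_mem_Car u) n.car) h
    (ax.num_r hK _ ((Num.of_prn (dv_mem_Prn u)).add n)).ge
  exact ⟨u⁻¹, inv_ne_zero u0, by rw [dv_inv, neg_eq_iff_add_eq_zero, this]⟩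

/-- an effective class of degree one is a curve -/
theorem prime (c : G ∈ CarZ K) (d : Det X G) (h : 0 ≤ G) (e : I2 k G = -1) :
    ∃ P, On 1 X P ∧ G = st X P := by
  have R := ax.rows K hK
  have kc := ax.kC hK hX
  obtain ⟨P, o, n⟩ : ∃ P, On 1 X P ∧ G P ≠ 0 := by
    by_contra! a
    rw [ax.uq hK hX.smp hX.big (CarZ.car c) (zero_mem _) d (fun P _ => R.zero P) a,
      R.prn_r _ (zero_mem _)] at e
    norm_num at e
  have s := ax.st_car hK hX o
  refine ⟨P, o, sub_eq_zero.1 (eff_zero ax hK hX amp (sub_mem (CarZ.car c) s)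
    (R.det_sub d (ax.st_det hK hX o) (CarZ.car c) s) (sub_st ax hK hX c d h o n) ?_)⟩
  obtain ⟨z, hz⟩ := R.int k (ax.kZ hK hX) P
  have a := Cm.amp_pos R hX.smp amp o
  rw [R.neg kc, hz] at a
  have b : z ≤ -1 := by
    have : z < 0 := by exact_mod_cast neg_pos.1 a
    omega
  rw [R.sub_r (R.isb _ kc) (CarZ.car c) s, e, ax.I2_st' hK hX o kc (ax.kD hK hX), hz, sub_nonneg]
  exact_mod_cast b

/-- a `(-1)`-class is the class of a line -/
theorem line (p : 0 < I2 k k) (c : D ∈ CarZ K) (d : Det X D) (s : I2 D D = -1) (e : I2 k D = -1) :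
    ∃ P, On 1 X P ∧ Num (st X P - D) := by
  have R := ax.rows K hK
  have kc := ax.kC hK hX
  obtain ⟨u, -, h⟩ := rr ax hK hX amp c d (by linarith) (by linarith)
  obtain ⟨P, o, a⟩ := prime ax hK hX amp (add_mem (dv_mem_CarZ u) c)
    (R.det_add (det_dv R u) d (dv_mem_Car u) (CarZ.car c)) h (by
      rw [R.add_r (R.isb _ kc) (dv_mem_Car u) (CarZ.car c), R.prn_r _ (dv_mem_Prn u), e, zero_add])
  exact ⟨P, o, by simpa [← a] using Num.of_prn (dv_mem_Prn u)⟩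

/-- three members of a pencil of conics -/
theorem three (p : 0 < I2 k k) (c₁ : F₁ ∈ CarZ K) (c₂ : F₂ ∈ CarZ K) (d₁ : Det X F₁)
    (d₂ : Det X F₂) (h₁ : 0 ≤ F₁) (h₂ : 0 ≤ F₂) (n : Num (F₁ - F₂)) (ne : F₁ ≠ F₂)
    (e : I2 k F₂ = -2) (o : On 1 X P) (kP : dg k P = -1) (z₁ : F₁ P = 0) (z₂ : F₂ P = 0)
    (g : dg F₂ P = 0) : ∃ y : K, y ≠ 0 ∧ 1 - y ≠ 0 ∧ dv y = F₁ - F₂ ∧ P.rd y = 1 ∧
      ∃ Q, On 1 X Q ∧ dv (1 - y) = st X P + st X Q - F₂ := by
  have R := ax.rows K hK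
  have kc := ax.kC hK hX
  have a₂ := CarZ.car c₂
  obtain ⟨u, u0, hu⟩ := fn ax hK hX amp p (sub_mem c₁ c₂) (R.det_sub d₁ d₂ (CarZ.car c₁) a₂) n
  have su : Sec F₂ u := .inr (by rwa [hu, sub_add_cancel])
  have hP := ax.ffs.rsd 1 K hK P
  have r := ax.res.sec 1 K hK P F₂ a₂ u z₂ su
  rw [Cv.eq_zero_of_I1 hP (Gx.res_car ax.res hK P a₂) (ax.res.nn 1 K hK P F₂ a₂ h₂ z₂) g.le] at r
  have un : Hd.Un P u := ⟨u0, by
    have : (P.ord u : ℝ) = F₁ P - F₂ P := congrFun hu P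
    rw [z₁, z₂, sub_zero] at this
    exact_mod_cast this⟩
  obtain ⟨c, hc⟩ := Fs.const_of_nonneg hP (by simpa using r.resolve_left un.rd_ne)
  have c0 : c ≠ 0 := fun a => un.rd_ne (by rw [← hc, a, map_zero])
  have y0 : c⁻¹ • u ≠ 0 := smul_ne_zero (inv_ne_zero c0) u0
  have hy : dv (c⁻¹ • u) = F₁ - F₂ := (dv_smul (inv_ne_zero c0) u).trans hu
  have y1 : 1 - c⁻¹ • u ≠ 0 := fun a => ne (by
    rw [← sub_eq_zero.1 a, dv_one] at hy
    exact sub_eq_zero.1 hy.symm)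
  have ry : P.rd (c⁻¹ • u) = 1 := by
    rw [Algebra.smul_def, Hd.rd_mul (P.con _) un.mem, Gx.rd_cst, ← hc, ← map_mul,
      inv_mul_cancel₀ c0, map_one]
  have s : 0 ≤ dv (1 - c⁻¹ • u) + F₂ := Or.resolve_left (show Sec _ _ by
    simpa [sub_eq_add_neg] using (sec_one.2 h₂).add (su.smul (-c⁻¹))) y1
  have gc := add_mem (dv_mem_CarZ (1 - c⁻¹ • u)) c₂
  have gd := R.det_add (det_dv R (1 - c⁻¹ • u)) d₂ (dv_mem_Car _) a₂
  have sc := ax.st_car hK hX o
  obtain ⟨Q, o', q⟩ := prime ax hK hX amp (sub_mem gc (ax.st_carZ hK hX o))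
    (R.det_sub gd (ax.st_det hK hX o) (CarZ.car gc) sc) (sub_st ax hK hX gc gd s o (by
      rw [Pi.add_apply, z₂, add_zero, dv_apply]
      exact_mod_cast (ord_sub ry y1).ne')) (by
      rw [R.sub_r (R.isb _ kc) (CarZ.car gc) sc, R.add_r (R.isb _ kc) (dv_mem_Car _) a₂,
        R.prn_r _ (dv_mem_Prn _), e, ax.I2_st' hK hX o kc (ax.kD hK hX), kP]
      norm_num)
  exact ⟨_, y0, y1, hy, ry, Q, o', by rw [← q]; abel⟩

end Vale.Agent.P287D.Fm.S5
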