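import Vale.Agent.P287D.Fm.Pi

/-!
# P287D, block FM: the quintic del Pezzo surface
-/

set_option linter.unusedVariables false
set_option linter.unusedSectionVars false

open Set Equiv
open scoped IntermediateField

noncomputable section

namespace Vale.Agent.P287D.Fm.M5

open Hd Dp Sf

variable {K₀ K : Type} [Field K₀] [Algebra ℂ K₀] [Field K] [Algebra ℂ K] {X k : BD K}
  {f : Fin 5 → BD K} {D : Fin 5 → Fin 5 → Pl K} {S : Fin 5 → Fin 5 → K} {a b c d e : Fin 5}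
  {y y' : K} {L : IntermediateField ℂ K₀} {φ : K₀ →+* K}

/-- the ten lines -/
structure Ls (X k : BD K) (f : Fin 5 → BD K) (D : Fin 5 → Fin 5 → Pl K) (S : Fin 5 → Fin 5 → K) :
    Prop where
  dl : Dl X k
  cs : Cs X k f
  deg : dl.J k k = 5
  on : ∀ {a b}, a ≠ b → On 1 X (D a b)
  ne : ∀ {a b}, a ≠ b → S a b ≠ 0
  eq : ∀ {a b}, a ≠ b → dv (S a b) + (-k - f a - f b) = st X (D a b)

theorem exists_ls (h : Dl X k) (s : Cs X k f) (q : h.J k k = 5) : ∃ D S, Ls X k f D S := by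
  have x : ∀ a b, a ≠ b → ∃ P t, On 1 X P ∧ t ≠ 0 ∧ dv t + (-k - f a - f b) = st X P :=
    fun a b n => h.line (sub_mem (sub_mem (neg_mem h.kG) (s.G h a)) (s.G h b))
      (by simp [q, s.kf h, s.fk h, s.ff h, n, n.symm]; norm_num) (by simp [q, s.kf h]; norm_num)
  obtain ⟨P₀, t₀, -⟩ := x 0 1 (by decide)
  have : ∀ a b, ∃ P t, a ≠ b → On 1 X P ∧ t ≠ 0 ∧ dv t + (-k - f a - f b) = st X P := fun a b => by
    by_cases n : a = b
    · exact ⟨P₀, t₀, fun c => absurd n c⟩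
    · exact let ⟨P, t, u⟩ := x a b n; ⟨P, t, fun _ => u⟩
  choose D S u using this
  exact ⟨D, S, h, s, q, fun n => (u _ _ n).1, fun n => (u _ _ n).2.1, fun n => (u _ _ n).2.2⟩

/-- four different indices -/
def Df (a b c d : Fin 5) : Prop := a ≠ b ∧ a ≠ c ∧ a ≠ d ∧ b ≠ c ∧ b ≠ d ∧ c ≠ d

theorem df (ρ : Perm (Fin 5)) {i j k l : Fin 5} (h : Df i j k l) : Df (ρ i) (ρ j) (ρ k) (ρ l) := by
  simpa [Df] using h

/-- the cross ratio -/
structure Cr (X : BD K) (D : Fin 5 → Fin 5 → Pl K) (a b c d : Fin 5) (y : K) : Prop where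
  ne : y ≠ 0
  ne' : 1 - y ≠ 0
  eq : dv y = st X (D a b) + st X (D c d) - (st X (D a c) + st X (D b d))
  eq' : dv (1 - y) = st X (D a d) + st X (D b c) - (st X (D a c) + st X (D b d))

theorem rd_one_of {P : Pl K} (n : 1 - y ≠ 0) (p : dv (1 - y) P = 1) :
    y ∈ P.ring ∧ P.rd y = 1 := by
  have q : 0 < P.ord (1 - y) := by
    rw [dv_apply] at p
    exact_mod_cast p ▸ (one_pos : (0 : ℝ) < 1)
  have m : 1 - y ∈ P.ring := (P297Z.Pl.ord_nonneg_iff _ n).1 q.le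
  have m' : y ∈ P.ring := by simpa using sub_mem (one_mem P.ring) m
  have := rd_add m m'
  rw [sub_add_cancel, rd_one, (rd_eq_zero m).2 (.inr q), zero_add] at this
  exact ⟨m', this.symm⟩

namespace Ls

variable (l : Ls X k f D S)
include l

theorem G (n : a ≠ b) : st X (D a b) ∈ l.dl.G := l.dl.stG (l.on n)

theorem num (n : a ≠ b) : Num (st X (D a b) - (-k - f a - f b)) :=
  .of_prn (by simpa [← l.eq n] using dv_mem_Prn _)

theorem kC (n : a ≠ b) : l.dl.J k (st X (D a b)) = -1 := by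
  rw [l.dl.J_congr' (l.num n) (Dl.car l.dl.kG)]
  simp [l.deg, l.cs.kf l.dl]
  norm_num

theorem JJ (n : a ≠ b) (m : c ≠ d) : l.dl.J (st X (D a b)) (st X (D c d)) = -3 +
    (if a = c then 0 else 1) + (if a = d then 0 else 1) + (if b = c then 0 else 1) +
      if b = d then 0 else 1 := by
  have s := l.cs
  rw [l.dl.J_congr (l.num n) (Dl.car (l.G m)), l.dl.J_congr' (l.num m)
    (Dl.car (sub_mem (sub_mem (neg_mem l.dl.kG) (s.G _ a)) (s.G _ b)))]
  simp only [map_sub, map_neg, LinearMap.sub_apply, LinearMap.neg_apply, l.deg, s.kf l.dl,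
    s.fk l.dl, s.ff l.dl]
  ring

theorem sym (n : a ≠ b) : D a b = D b a :=
  l.dl.eq_of (l.on n) (l.on n.symm) (by rw [l.JJ n n.symm]; simp [n, n.symm]; norm_num)

theorem D_eq (n : a ≠ b) (m : c ≠ d) : D c d = D a b ↔ (a = c ∧ b = d) ∨ (a = d ∧ b = c) := by
  refine ⟨fun e => ?_, ?_⟩
  · have u := l.JJ n m
    rw [e, l.JJ n n] at u
    rw [if_pos rfl, if_neg n, if_neg n.symm, if_pos rfl] at u
    split_ifs at u <;> first | omega | (norm_num at u)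
  · rintro (⟨rfl, rfl⟩ | ⟨rfl, rfl⟩)
    exacts [rfl, l.sym m]

theorem val (n : a ≠ b) (m : c ≠ d) :
    st X (D a b) (D c d) = if (a = c ∧ b = d) ∨ (a = d ∧ b = c) then 1 else 0 := by
  rw [l.dl.st_on (l.on n) (l.on m), Pl.δ]
  simp only [l.D_eq n m]

theorem con (n : Df a b c d) : Con X k (st X (D a c) + st X (D b d)) ∧
    Nef (st X (D a c) + st X (D b d)) := by
  obtain ⟨n1, n2, n3, n4, n5, n6⟩ := n
  have u := l.JJ n2 n2
  have v := l.JJ n5 n5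
  have w := l.JJ n2 n5
  have w' := l.JJ n5 n2
  simp [n1, n2, n3, n4, n5, n6, n1.symm, n2.symm, n3.symm, n4.symm, n5.symm, n6.symm] at u v w w'
  refine ⟨l.dl.con_iff.2 ⟨add_mem (l.G n2) (l.G n5), ?_, ?_⟩,
    l.dl.nef_fib (l.on n2) (l.on n5) ?_ ?_⟩
  · simp [u, v, w, w']; norm_num
  · simp [l.kC n2, l.kC n5]; norm_num
  · simp [u, w']; norm_num
  · simp [v, w]; norm_num

theorem quo (n1 : a ≠ b) (n2 : c ≠ d) {a' b' c' d' : Fin 5} (n3 : a' ≠ b') (n4 : c' ≠ d')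
    (e : f a + f b + f c + f d = f a' + f b' + f c' + f d') :
    dv (S a b * S c d / (S a' b' * S c' d')) =
      st X (D a b) + st X (D c d) - (st X (D a' b') + st X (D c' d')) := by
  rw [dv_div (mul_ne_zero (l.ne n1) (l.ne n2)) (mul_ne_zero (l.ne n3) (l.ne n4)),
    dv_mul (l.ne n1) (l.ne n2), dv_mul (l.ne n3) (l.ne n4), ← l.eq n1, ← l.eq n2, ← l.eq n3,
    ← l.eq n4]
  linear_combination (exp := 1) e

theorem ex (n : Df a b c d) : ∃ y, Cr X D a b c d y := by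
  have ⟨n1, n2, n3, n4, n5, n6⟩ := n
  have u := l.quo n1 n6 n2 n5 (by abel)
  have v := l.quo n3 n4 n2 n5 (by abel)
  have q := mul_ne_zero (l.ne n2) (l.ne n5)
  have p := fun {a b} (n : a ≠ b) => l.dl.st_nn (l.on n)
  obtain ⟨z, z1, z2, z3, z4⟩ := l.dl.pencil (l.con n).1 (l.con n).2 (add_nonneg (p n2) (p n5))
    (div_ne_zero (mul_ne_zero (l.ne n1) (l.ne n6)) q)
    (div_ne_zero (mul_ne_zero (l.ne n3) (l.ne n4)) q)
    (by rw [u, sub_add_cancel]; exact add_nonneg (p n1) (p n6))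
    (by rw [v, sub_add_cancel]; exact add_nonneg (p n3) (p n4))
    (fun e => by
      simpa [l.val, *, n1.symm, n2.symm, n4.symm, n3.symm, n5.symm] using
        congrFun (u.symm.trans e) (D a b))
    (fun e => by
      simpa [l.val, *, n1.symm, n2.symm, n4.symm, n3.symm, n5.symm] using
        congrFun (v.symm.trans e) (D a d))
    (fun e => by
      simpa [l.val, n1, n2, n3, n4, n5, n6, n1.symm, n2.symm, n4.symm, n3.symm, n5.symm] using
        congrFun (u.symm.trans (e.trans v)) (D a b))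
  exact ⟨z, z1, z2, z3.trans u, z4.trans v⟩

theorem ord (n : Df a b c d) (u : Cr X D a b c d y) :
    dv y (D a b) = 1 ∧ dv y (D c d) = 1 ∧ dv (1 - y) (D b c) = 1 := by
  have ⟨n1, n2, n3, n4, n5, n6⟩ := n
  rw [u.eq, u.eq']
  simp [l.val, n1, n2, n3, n4, n5, n6, n1.symm, n2.symm, n4.symm, n3.symm, n5.symm, n6.symm]

theorem uq (n : Df a b c d) (u : Cr X D a b c d y) (v : Cr X D a b c d y') : y = y' :=
  l.dl.pencil_uq u.ne v.ne u.ne' v.ne' (fun e => by simpa [e] using (l.ord n v).1)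
    (u.eq.trans v.eq.symm) (u.eq'.trans v.eq'.symm)

theorem inv (n : Df a b c d) (u : Cr X D a b c d y) : Cr X D a c b d y⁻¹ := by
  have ⟨n1, n2, n3, n4, n5, n6⟩ := n
  have e : 1 - y⁻¹ = -((1 - y) / y) := by field_simp [u.ne]; ring
  refine ⟨inv_ne_zero u.ne, e ▸ neg_ne_zero.2 (div_ne_zero u.ne' u.ne), ?_, ?_⟩
  · rw [dv_inv, u.eq, neg_sub]
  · rw [e, dv_neg, dv_div u.ne' u.ne, u.eq, u.eq', l.sym n4]
    abel

theorem add (n : Df a b c d) (u : Cr X D a b c d y) : Cr X D a d c b (1 - y) := by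
  have ⟨n1, n2, n3, n4, n5, n6⟩ := n
  refine ⟨u.ne', by simpa using u.ne, ?_, ?_⟩
  · rw [u.eq', l.sym n4, l.sym n5]
  · rw [sub_sub_cancel, u.eq, l.sym n6, l.sym n5]

theorem swp (n : Df a b c d) (u : Cr X D a b c d y) : Cr X D b a d c y := by
  have ⟨n1, n2, n3, n4, n5, n6⟩ := n
  refine ⟨u.ne, u.ne', ?_, ?_⟩
  · rw [u.eq, l.sym n1, l.sym n6]
    abel
  · rw [u.eq']
    abel

theorem mul {y₁ y₂ : K} (n : Df a b c d) (n' : Df a b c e) (n'' : Df e b c d)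
    (u : Cr X D a b c d y) (v : Cr X D a b c e y₁) (w : Cr X D e b c d y₂) : y = y₁ * y₂ := by
  obtain ⟨t, -, q⟩ := l.dl.cst' u.ne (mul_ne_zero v.ne w.ne) (by
    rw [dv_mul v.ne w.ne, u.eq, v.eq, w.eq, l.sym n''.1, l.sym n''.2.1]
    abel)
  have r := rd_one_of u.ne' (l.ord n u).2.2
  have r1 := rd_one_of v.ne' (l.ord n' v).2.2
  have r2 := rd_one_of w.ne' (l.ord n'' w).2.2
  have z : (D b c).rd (algebraMap ℂ K t) = algebraMap ℂ (D b c).κ t := rd_of ((D b c).con _)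
  have x := r.2
  rw [q, rd_mul ((D b c).con _) (mul_mem r1.1 r2.1), rd_mul r1.1 r2.1, r1.2, r2.2, z, mul_one,
    mul_one, map_eq_one_iff _ (algebraMap ℂ _).injective] at x
  rw [q, x, map_one, one_mul]

theorem pld (n : Df a b c d) (u : Cr X D a b c d y) : pld y = st X (D a c) + st X (D b d) := by
  have ⟨n1, n2, n3, n4, n5, n6⟩ := n
  have p := fun {a b} (n : a ≠ b) => l.dl.st_nn (l.on n)
  refine l.dl.pld_eq (add_mem (l.G n2) (l.G n5)) (add_mem (l.G n1) (l.G n6)) u.eq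
    (l.dl.con_iff.1 (l.con n).1).2.1 fun P o => ?_
  by_cases q : P = D a b ∨ P = D c d
  · refine .inl ⟨?_, add_nonneg (p n1 P) (p n6 P)⟩
    rcases q with rfl | rfl <;>
      simp [l.val, n1, n2, n3, n4, n5, n6, n1.symm, n2.symm, n4.symm, n3.symm, n5.symm, n6.symm]
  · refine .inr ⟨?_, add_nonneg (p n2 P) (p n5 P)⟩
    rw [Pi.add_apply, l.dl.st_on (l.on n1) o, l.dl.st_on (l.on n6) o,
      Pl.δ_ne fun e => q (.inl e), Pl.δ_ne fun e => q (.inr e), add_zero]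

theorem prn (ρ : Perm (Fin 5)) (u : Cr X D (ρ 0) (ρ 1) (ρ 2) (ρ 3) y) :
    P287D.pld y - f (ρ 4) ∈ Prn K := by
  have n := df ρ (show Df 0 1 2 3 by simp [Df])
  have s := l.dl.prn (l.cs.sum l.dl (c := 2) (by rw [l.deg]; norm_num) (by norm_num))
  rw [← Equiv.sum_comp ρ f, Fin.sum_univ_five] at s
  rw [l.pld n u, ← l.eq n.2.1, ← l.eq n.2.2.2.2.1]
  convert sub_mem (add_mem (dv_mem_Prn (S (ρ 0) (ρ 2))) (dv_mem_Prn (S (ρ 1) (ρ 3)))) s using 1
  module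

theorem gal (z : Dz L φ X k) (σ : Gal φ) {g : Perm (Fin 5)}
    (p : ∀ i, Num (pb (σ.1 : K →+* K) (f i) - f (g i))) (n : a ≠ b) :
    (z.gf.toGF.semi σ.2).pl (D a b) = D (g a) (g b) ∧
      pb (σ.1 : K →+* K) (st X (D a b)) = st X (D (g a) (g b)) := by
  have m : g a ≠ g b := g.injective.ne n
  refine pl_line l.dl.ax z σ.2 (l.on n) (l.on m) ?_ ?_
  · have u := (z.gf.toGF.semi σ.2).num.2 (l.num n)
    have v := Num.of_prn (l.dl.ax.pb_k z.ff z.gf.toGF z.toMd σ.2)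
    simp only [pb_sub, pb_neg] at u
    convert (((u.add v.neg).add (p a).neg).add (p b).neg).add (l.num m).neg using 1
    abel
  · rw [← Dl.J_st (l.on m) (l.G m), l.JJ m m]
    simp [m, m.symm]
    norm_num

end Ls

theorem p5 (ax : Ax) : P5 := by
  intro K₀ K _ _ _ _ L φ X k z q f s
  have h := z.dl ax
  obtain ⟨D, S, l⟩ := exists_ls h s ((Dl.J_G h.kG h.kG).trans q)
  obtain ⟨π, hπ⟩ := exists_pi5 ax z s q
  have n : ∀ ρ : Perm (Fin 5), Df (ρ 0) (ρ 1) (ρ 2) (ρ 3) := fun ρ => df ρ (by simp [Df])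
  choose y u using fun ρ => l.ex (n ρ)
  have w := fun ρ => l.prn ρ (u ρ)
  refine ⟨y, π, ⟨⟨fun ρ => ?_, fun ρ => ?_, fun ρ => ?_, fun ρ => ?_⟩, fun σ ρ => ?_, ?_,
    fun g e => ?_⟩, hπ, fun ρ => ⟨w ρ, ?_⟩⟩
  · rw [l.uq (n _) (u (ρ * swap 1 2)) (l.inv (n ρ) (u ρ)), inv_mul_cancel₀ (u ρ).ne]
  · rw [l.uq (n _) (u (ρ * swap 1 3)) (l.add (n ρ) (u ρ)), sub_add_cancel]
  · exact l.uq (n _) (u (ρ * (swap 0 1 * swap 2 3))) (l.swp (n ρ) (u ρ))
  · exact l.mul (n ρ) (n (ρ * swap 3 4)) (n (ρ * swap 0 4)) (u ρ) (u (ρ * swap 3 4))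
      (u (ρ * swap 0 4))
  · have ⟨n1, n2, n3, n4, n5, n6⟩ := n ρ
    have g := fun {a b} (m : a ≠ b) => (l.gal z σ (hπ σ) m).2
    have ok := (z.gf.toGF.semi σ.2).ok
    have e : 1 - σ.1 (y ρ) = σ.1 (1 - y ρ) := by simp
    refine l.uq (n _) ⟨by simpa using (u ρ).ne, e ▸ (map_ne_zero _).2 (u ρ).ne', ?_, ?_⟩ (u _)
    · refine (ok.pb_dv (y ρ)).symm.trans ?_
      rw [(u ρ).eq, pb_sub, pb_add, pb_add, g n1, g n6, g n2, g n5]
      rfl
    · rw [e]
      refine (ok.pb_dv (1 - y ρ)).symm.trans ?_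
      rw [(u ρ).eq', pb_sub, pb_add, pb_add, g n3, g n4, g n2, g n5]
      rfl
  · refine top_le_iff.1 ((h.gen (x := y 1) (y := y (swap 3 4)) ?_).ge.trans
      (IntermediateField.adjoin.mono _ _ _ (by rintro _ (rfl | rfl) <;> exact mem_range_self _)))
    rw [← h.J_eq (pld_car _) (pld_car _), h.J_congr (.of_prn (w 1)) (pld_car _),
      h.J_congr' (.of_prn (w _)) (Dl.car (s.G h _)), s.ff h, if_neg (by decide)]
  · refine Equiv.ext fun i => ?_
    have a := w (g * swap 4 i)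
    rw [e] at a
    simpa using s.inj h (Num.trans' (Num.symm' (.of_prn a)) (.of_prn (w _)))
  · have ⟨n1, n2, n3, n4, n5, n6⟩ := n ρ
    have o := l.ord (n ρ) (u ρ)
    rw [dv_apply, dv_apply] at o
    refine ⟨_, l.on n1, _, l.on n6, fun e => ?_, by exact_mod_cast o.1, by exact_mod_cast o.2.1,
      ?_⟩
    · simpa [n2.symm, n4.symm] using (l.D_eq n6 n1).1 e
    · rintro σ ⟨m, e⟩
      rw [(z.gf.toGF.semi m).lies_iff, (l.gal z ⟨σ, m⟩ (hπ _) n1).1, e]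
      rfl

end Vale.Agent.P287D.Fm.M5
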