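import Vale.Agent.P287D.Fm.St2
import Vale.Agent.P287D.Dp.Ns
import Vale.Agent.P287D.Gf.Des

/-!
# P287D, block FM: the orbit of a conic class in rank one
-/

set_option linter.unusedVariables false

open Set

noncomputable section

namespace Vale.Agent.P287D.Fm

open Dp Sf Pb

variable {K K' : Type} [Field K] [Algebra ℂ K] [Field K'] [Algebra ℂ K'] {φ : K →+* K'}
  {X k f g β : BD K'} {L : IntermediateField ℂ K}

theorem avg_car (h : GF L φ) (hβ : β ∈ Car K') : ∃ (ι : Type) (_ : Fintype ι) (_ : Nonempty ι)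
    (σ : ι → K' ≃+* K'), (∀ i, σ i ∈ Gal φ) ∧ Inv φ (∑ i, pb (σ i : K' →+* K') β) := by
  classical
  obtain ⟨l, rfl⟩ := mem_Car.1 hβ
  obtain ⟨ι, _, _, σ, hσ, hp⟩ := h.avg (l.support.biUnion id)
  refine ⟨ι, inferInstance, inferInstance, σ, hσ, fun ρ hρ => ?_⟩
  obtain ⟨e, he⟩ := hp ρ hρ
  rw [pb_sum]
  refine Fintype.sum_equiv e _ _ fun i => ?_
  simp only [cmb_sum, pb_sum, pb_smul]
  refine Finset.sum_congr rfl fun s hs => congrArg _ ?_
  rw [(h.semi (hσ i)).ok.pb_mx, (h.semi hρ).ok.pb_mx, (h.semi (hσ _)).ok.pb_mx]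
  congr 1
  have m : ∀ x ∈ s, ρ (σ i x) = σ (e i) x := fun x hx =>
    he i x (Finset.mem_biUnion.2 ⟨s, hs, hx⟩)
  ext g
  simp only [mem_im]
  exact ⟨fun ⟨_, ⟨x, hx, p⟩, q⟩ => ⟨x, hx, (m x hx).symm.trans (by rw [← q, ← p]; rfl)⟩,
    fun ⟨x, hx, q⟩ => ⟨_, ⟨x, hx, rfl⟩, (m x hx).trans q⟩⟩

theorem I2_sum_l (R : Rows K') {ι : Type} (T : Finset ι) {u : ι → BD K'} (h : ∀ i, u i ∈ Car K')
    (hβ : β ∈ Car K') : I2 (∑ i ∈ T, u i) β = ∑ i ∈ T, I2 (u i) β := by
  classical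
  induction T using Finset.induction_on with
  | empty => simpa using R.prn_l (zero_mem _) hβ
  | insert a T n ih =>
    rw [Finset.sum_insert n, Finset.sum_insert n,
      R.add_l (R.isb _ (h a)) (R.isb _ (sum_mem fun i _ => h i)) hβ, ih]

theorem Con.conj (ax : Ax) (z : Dz L φ X k) (c : Con X k f) {σ : K' ≃+* K'} (hσ : σ ∈ Gal φ) :
    Con X k (pb (σ : K' →+* K') f) := by
  have s := z.gf.toGF.semi hσ
  have R := ax.rows K' z.ff
  have a := CarZ.car c.car
  refine ⟨s.carZ.2 c.car, ax.det_pb z.ff z.gf.toGF z.toMd hσ a c.det, ?_, ?_⟩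
  · rw [ax.I2_pb z.ff s _ a, c.sq]
  · rw [← R.congr_l (R.isb _ (ax.kC z.ff z.term)) (ax.pb_k z.ff z.gf.toGF z.toMd hσ) (s.car.2 a),
      ax.I2_pb z.ff s _ a, c.kf]

/-- two conic classes of a surface of degree at least five meet at most once -/
theorem Con.meet (ax : Ax) (hK : FF K' 2) (hk : k ∈ Car K') (d : 5 ≤ I2 k k) (c : Con X k f)
    (c' : Con X k g) : I2 f g = 0 ∨ I2 f g = 1 := by
  have R := ax.rows K' hK
  have a := CarZ.car c.car
  have b := CarZ.car c'.car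
  have p : 0 < I2 k k := by linarith
  have u := R.hodge hk (add_mem a b) p
  have v := R.hi k hk _ (sub_mem a b) p (by rw [R.sub_r (R.isb _ hk) a b, c.kf, c'.kf, sub_self])
  rw [R.add_r (R.isb _ hk) a b, R.add_l (R.isb _ a) (R.isb _ b) (add_mem a b),
    R.add_r (R.isb _ a) a b, R.add_r (R.isb _ b) a b, R.symm _ b _ a, c.kf, c'.kf, c.sq,
    c'.sq] at u
  rw [R.sub_l (R.isb _ a) (R.isb _ b) (sub_mem a b), R.sub_r (R.isb _ a) a b,
    R.sub_r (R.isb _ b) a b, R.symm _ b _ a, c.sq, c'.sq] at v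
  obtain ⟨m, e⟩ := ax.I2_int hK c.car c'.car
  rw [e] at u v ⊢
  have m0 : 0 ≤ m := by exact_mod_cast (by linarith : (0 : ℝ) ≤ m)
  have m1 : m < 2 := by exact_mod_cast (by nlinarith : (m : ℝ) < 2)
  have : m = 0 ∨ m = 1 := by omega
  exact_mod_cast this

theorem orb_step (ax : Ax) (z : Dz L φ X k) (r : Rk1 φ X k) (c : Con X k f) (d : 5 ≤ I2 k k)
    {n : ℕ} (u : Fin n → BD K') (hu : ∀ a, Con X k (u a)) (hn : n * (I2 k k - 4) < I2 k k) :
    ∃ g, Con X k g ∧ ∀ a, I2 g (u a) = 1 := by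
  have R := ax.rows K' z.ff
  have kc := ax.kC z.ff z.term
  obtain ⟨ι, _, _, σ, hσ, i⟩ := avg_car z.gf.toGF (CarZ.car c.car)
  have s := fun i => c.conj ax z (hσ i)
  have t := fun i => CarZ.car (s i).car
  obtain ⟨x, hx⟩ := r _ (sum_mem fun i _ => t i) (fun P e => by
    rw [R.sum _ fun i _ => t i]
    exact Finset.sum_eq_zero fun i _ => (s i).det P e) i
  have q : ∀ γ ∈ Car K', ∑ i, I2 (pb (σ i : K' →+* K') f) γ = x * I2 k γ := fun γ hγ => by
    rw [← I2_sum_l R _ t hγ, ax.congr_l z.ff (Submodule.smul_mem _ x kc) hx hγ,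
      R.smul_l _ (R.isb _ kc) hγ]
  have q1 := q k kc
  rw [Finset.sum_congr rfl fun i _ => (R.symm _ (t i) _ kc).trans (s i).kf, Finset.sum_const,
    nsmul_eq_mul, Finset.card_univ] at q1
  by_contra! h
  have w : ∀ i, 1 ≤ ∑ a, (1 - I2 (pb (σ i : K' →+* K') f) (u a)) := fun i => by
    obtain ⟨a, ha⟩ := h _ (s i)
    have := Finset.single_le_sum (f := fun a => 1 - I2 (pb (σ i : K' →+* K') f) (u a))
      (fun b _ => by rcases (s i).meet ax z.ff kc d (hu b) with e | e <;> simp [e])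
      (Finset.mem_univ a)
    rwa [((s i).meet ax z.ff kc d (hu a)).resolve_right ha, sub_zero] at this
  have y := Finset.sum_le_sum fun i (_ : i ∈ Finset.univ) => w i
  rw [Finset.sum_comm, Finset.sum_congr rfl fun a _ => show
      ∑ i, (1 - I2 (pb (σ i : K' →+* K') f) (u a)) = Fintype.card ι + 2 * x by
    rw [Finset.sum_sub_distrib, q _ (CarZ.car (hu a).car), (hu a).kf]
    simp
    ring] at y
  simp only [Finset.sum_const, nsmul_eq_mul, Finset.card_univ, Fintype.card_fin, mul_one] at y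
  have N : (0 : ℝ) < Fintype.card ι := by exact_mod_cast Fintype.card_pos
  have := mul_le_mul_of_nonneg_right y (by linarith : 0 ≤ I2 k k)
  have := mul_lt_mul_of_pos_left hn N
  have : (n : ℝ) * (Fintype.card ι * -2) = n * (x * I2 k k) := by rw [q1]
  nlinarith

theorem orb_ind (ax : Ax) (z : Dz L φ X k) (r : Rk1 φ X k) (c : Con X k f) (d : 5 ≤ I2 k k) :
    ∀ n : ℕ, n * (I2 k k - 4) < I2 k k → ∃ u : Fin (n + 1) → BD K', Cs X k u ∧ u 0 = f
  | 0, _ => ⟨fun _ => f, ⟨fun _ => c, fun i j e => absurd (Subsingleton.elim (α := Fin 1) i j) e⟩, rfl⟩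
  | n + 1, h => by
    obtain ⟨u, hu, e⟩ := orb_ind ax z r c d n (by push_cast at h; linarith)
    obtain ⟨g, hg, o⟩ := orb_step ax z r c d u hu.con h
    refine ⟨Fin.snoc u g, ⟨fun i => ?_, fun i j => ?_⟩, ?_⟩
    · refine Fin.lastCases ?_ (fun i => ?_) i
      · simpa using hg
      · simpa using hu.con i
    · refine Fin.lastCases ?_ (fun i => ?_) i <;> refine Fin.lastCases ?_ (fun j => ?_) j
      · exact fun a => absurd rfl a
      · exact fun _ => by simpa using o j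
      · intro _
        simpa using ((ax.rows K' z.ff).symm _ (CarZ.car (hu.con i).car) _
          (CarZ.car hg.car)).trans (o i)
      · exact fun a => by simpa using hu.one i j fun b => a (congrArg _ b)
    · exact (Fin.snoc_castSucc (α := fun _ => BD K') g u 0).trans e

theorem orb (ax : Ax) : ORB := fun K K' _ _ _ _ L φ X k z r f c =>
  ⟨fun e => orb_ind ax z r c e.ge 4 (by rw [e]; norm_num),
    fun e => orb_ind ax z r c (by rw [e]; norm_num) 2 (by rw [e]; norm_num)⟩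

end Vale.Agent.P287D.Fm
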