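import Vale.Agent.P287D.Fm.St2
import Vale.Agent.P287D.Va.Alg

/-!
# P287D, block FM: lines and conic classes on a del Pezzo surface
-/

open Set

noncomputable section

namespace Vale.Agent.P287D.Fm.S6

open Dp Sf

variable {K : Type} [Field K] [Algebra ℂ K] {X k : BD K} {P Q : Pl K}

/-- a del Pezzo surface of degree at least two -/
structure Sp (X k : BD K) : Prop where
  ax : Ax
  ff : FF K 2
  term : Term 1 X k
  amp : AmpOn X (-k)
  deg : 1 < I2 k k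

namespace Sp

variable (h : Sp X k)
include h

theorem R : Rows K := h.ax.rows K h.ff

/-- the lattice -/
def lt : AddSubgroup (BD K) where
  carrier := {β | β ∈ CarZ K ∧ Det X β}
  add_mem' a b := ⟨add_mem a.1 b.1, h.R.det_add a.2 b.2 (CarZ.car a.1) (CarZ.car b.1)⟩
  zero_mem' := ⟨zero_mem _, fun P _ => h.R.zero P⟩
  neg_mem' a := ⟨neg_mem a.1, fun P e => by rw [h.R.neg (CarZ.car a.1), a.2 P e, neg_zero]⟩

variable {h} in
theorem car (x : h.lt) : x.1 ∈ Car K := CarZ.car x.2.1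

variable {h} in
theorem isb (x : h.lt) : IsB 1 x.1 := h.R.isb _ (car x)

/-- the form -/
def B : h.lt →+ h.lt →+ ℝ := AddMonoidHom.mk'
  (fun x => AddMonoidHom.mk' (fun y => I2 x.1 y.1) fun a b => h.R.add_r (isb x) (car a) (car b))
  fun a b => AddMonoidHom.ext fun y => h.R.add_l (isb a) (isb b) (car y)

/-- the canonical class -/
def κ : h.lt := ⟨k, h.ax.kZ h.ff h.term, h.ax.kD h.ff h.term⟩

open Classical in
/-- a curve -/
def c (P : Pl K) : h.lt :=
  if o : On 1 X P then ⟨st X P, h.ax.st_carZ h.ff h.term o, h.ax.st_det h.ff h.term o⟩ else 0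

theorem c_val (o : On 1 X P) : (h.c P).1 = st X P := by rw [c, dif_pos o]

theorem c_nn (o : On 1 X P) : 0 ≤ (h.c P).1 := h.c_val o ▸ h.ax.st_nn h.ff h.term o

theorem c_on (o : On 1 X P) (o' : On 1 X Q) : (h.c P).1 Q = P.δ Q :=
  h.c_val o ▸ h.ax.st_on h.ff h.term o o'

theorem kc : k ∈ Car K := h.ax.kC h.ff h.term

/-- a principal divisor -/
def d (u : K) : h.lt := ⟨dv u, dv_mem_CarZ u, fun P _ => h.R.prn _ (dv_mem_Prn u) P⟩

theorem sym (x y : h.lt) : h.B x y = h.B y x := h.R.symm _ (car x) _ (car y)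

theorem prn {x : h.lt} (e : x.1 ∈ Prn K) (y : h.lt) : h.B x y = 0 := h.R.prn_l e (car y)

@[simp] theorem B_d (u : K) (y : h.lt) : h.B (h.d u) y = 0 := h.prn (dv_mem_Prn u) y

@[simp] theorem B_d' (u : K) (y : h.lt) : h.B y (h.d u) = 0 := h.R.prn_r _ (dv_mem_Prn u)

theorem B_c (o : On 1 X P) (y : h.lt) : h.B (h.c P) y = dg y.1 P :=
  (congrArg (I2 · y.1) (h.c_val o)).trans (h.ax.I2_st h.ff h.term o y.2.2)

theorem int (x y : h.lt) : ∃ z : ℤ, h.B x y = z := by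
  have := h.ax.int.int 1 K h.ff x.1 (fun _ => y.1) (CarZ.int x.2.1) (isb x) fun _ => y.2.1
  rwa [cons2] at this

theorem meet (o : On 1 X P) (o' : On 1 X Q) (n : P ≠ Q) : 0 ≤ h.B (h.c P) (h.c Q) := by
  rw [h.B_c o, h.c_val o']
  exact h.ax.st_meet h.ff h.term o' o n

theorem zero {x : h.lt} (a : h.B h.κ x = 0) (b : h.B x x = 0) (y : h.lt) : h.B x y = 0 :=
  h.ax.num_l h.ff (h.ax.num_of h.ff (car h.κ) (car x) (one_pos.trans h.deg) a b.ge) (car y)

theorem nnk : Nn (-k) := h.R.nn_smp h.amp.smp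

theorem kneg (o : On 1 X P) : 0 < dg (-k) P := by
  obtain ⟨-, ε, e, a⟩ := h.amp
  have x := (h.R.nn_smp a).nn P
  rw [h.R.sub h.nnk.car ((Car K).smul_mem ε h.term.smp.car), h.R.smul ε X h.term.smp.car] at x
  nlinarith [on_iff.1 o]

theorem kle (o : On 1 X P) : ∃ z : ℤ, z ≤ -1 ∧ h.B h.κ (h.c P) = z := by
  obtain ⟨z, e⟩ := h.int (h.c P) h.κ
  have a := h.kneg o
  rw [h.R.neg h.kc, show dg k P = z from (h.B_c o h.κ).symm.trans e] at a
  exact ⟨z, by have : z < 0 := by exact_mod_cast neg_pos.1 a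
               omega, h.sym _ _ ▸ e⟩

theorem k_eff {x : h.lt} (a : 0 ≤ x.1) : h.B h.κ x ≤ 0 := by
  have := h.nnk.I2_nonneg (Z := x.1) fun P _ => a P
  rw [h.R.neg_r (isb x) h.kc] at this
  rw [h.sym]
  exact neg_nonneg.1 this

theorem peel {x : h.lt} (a : 0 ≤ x.1) (n : x ≠ 0) : ∃ P, On 1 X P ∧ 0 ≤ (x - h.c P).1 := by
  obtain ⟨P, o, p⟩ : ∃ P, On 1 X P ∧ x.1 P ≠ 0 := by
    by_contra e
    exact n (Subtype.ext (h.ax.uq h.ff h.term.smp h.term.big (car x) (car 0) x.2.2 (0 : h.lt).2.2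
      fun P o => by_contra fun p => e ⟨P, o, p⟩))
  refine ⟨P, o, h.ax.nn_of h.ff h.term.smp h.term.big (car _) (x - h.c P).2.2 fun Q o' => ?_⟩
  change 0 ≤ x.1 Q - (h.c P).1 Q
  rw [h.c_on o o']
  by_cases e : Q = P
  · obtain ⟨z, hz⟩ := CarZ.int x.2.1 P
    have : 0 < x.1 P := (a P).lt_of_ne' p
    rw [e, Pl.δ_self, hz]
    rw [hz] at this
    have : (1 : ℤ) ≤ z := by exact_mod_cast this
    exact sub_nonneg.2 (by exact_mod_cast this)
  · rw [Pl.δ_ne e, sub_zero]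
    exact a Q

theorem eq_zero {x : h.lt} (a : 0 ≤ x.1) (b : 0 ≤ h.B h.κ x) : x = 0 := by
  by_contra n
  obtain ⟨P, o, e⟩ := h.peel a n
  obtain ⟨z, z1, z2⟩ := h.kle o
  have := h.k_eff e
  have z3 : (z : ℝ) ≤ -1 := by exact_mod_cast z1
  rw [map_sub] at this
  linarith

theorem adj (o : On 1 X P) : ∃ m : ℕ, h.B (h.c P) (h.c P) + h.B h.κ (h.c P) = 2 * m - 2 := by
  obtain ⟨m, e⟩ := h.ax.adj h.ff h.term o
  refine ⟨pg P.κ 1 + m, ?_⟩
  rw [h.sym h.κ, h.B_c o, h.B_c o, h.c_val o]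
  push_cast
  exact e.trans (by ring)

theorem lin (o : On 1 X P) (e : h.B h.κ (h.c P) = -1) : Lin X k P := by
  obtain ⟨m, a⟩ := h.adj o
  have b : h.B h.κ h.κ * h.B (h.c P) (h.c P) ≤ h.B h.κ (h.c P) ^ 2 :=
    h.R.hodge (car h.κ) (car (h.c P)) (one_pos.trans h.deg)
  have d : 1 < h.B h.κ h.κ := h.deg
  have m0 : m = 0 := by
    by_contra n
    have : (1 : ℝ) ≤ m := by exact_mod_cast Nat.one_le_iff_ne_zero.2 n
    rw [e] at a b
    nlinarith
  refine ⟨o, h.c_val o ▸ (h.B_c o (h.c P)).symm.trans ?_,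
    (h.B_c o h.κ).symm.trans (h.sym _ _ ▸ e)⟩
  rw [m0, e] at a
  push_cast at a
  linarith

theorem l_sq (l : Lin X k P) : h.B (h.c P) (h.c P) = -1 := by
  rw [h.B_c l.on, h.c_val l.on, l.sq]

theorem l_k (l : Lin X k P) : h.B h.κ (h.c P) = -1 :=
  (h.sym _ _).trans ((h.B_c l.on _).trans l.deg)

theorem deg1 {x : h.lt} (a : 0 ≤ x.1) (b : h.B h.κ x = -1) :
    ∃ P, Lin X k P ∧ x = h.c P := by
  obtain ⟨P, o, e⟩ := h.peel a fun n => by simp [n] at b
  obtain ⟨z, z1, z2⟩ := h.kle o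
  have z3 : (z : ℝ) ≤ -1 := by exact_mod_cast z1
  have := sub_eq_zero.1 (h.eq_zero e (by rw [map_sub]; linarith))
  exact ⟨P, h.lin o (this ▸ b), this⟩

theorem deg2 {x : h.lt} (a : 0 ≤ x.1) (b : h.B h.κ x = -2) :
    (∃ P, On 1 X P ∧ x = h.c P) ∨ ∃ P Q, Lin X k P ∧ Lin X k Q ∧ x = h.c P + h.c Q := by
  obtain ⟨P, o, e⟩ := h.peel a fun n => by simp [n] at b
  obtain ⟨z, z1, z2⟩ := h.kle o
  rcases z1.eq_or_lt with z3 | z3
  · rw [z3] at z2
    obtain ⟨Q, l, q⟩ := h.deg1 e (by rw [map_sub, b, z2]; norm_num)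
    exact .inr ⟨P, Q, h.lin o (by simpa using z2), l, sub_eq_iff_eq_add'.1 q⟩
  · have z4 : (z : ℝ) ≤ -2 := by exact_mod_cast (by omega : z ≤ -2)
    exact .inl ⟨P, o, sub_eq_zero.1 (h.eq_zero e (by rw [map_sub]; linarith))⟩

/-- Riemann-Roch -/
theorem rr {x : h.lt} (a : h.B h.κ x ≤ h.B x x) (b : h.B h.κ x ≤ 0) :
    ∃ u : K, u ≠ 0 ∧ 0 ≤ (x + h.d u).1 := by
  obtain ⟨χ, r, -, e⟩ := h.ax.rr2 K h.ff
  have t := h.term
  obtain rfl := e ⟨X, k, t.smp, t.big, car h.κ, fun P o => by simp [dsc, t.hull.2 P o], fun P => by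
    by_cases o : On 1 X P
    · simp [dsc, t.hull.2 P o]
    · linarith [t.pos P o], h.amp.nef, h.amp.big_iff.1 t.big⟩
  have s := r x.1 x.2.1 (-k) h.amp.nef (by
    rw [h.R.sub_l h.R.cnb (isb x) h.nnk.car, h.R.neg_r h.R.cnb h.kc,
      h.ax.I2_cn h.ff t (h.ax.kD h.ff t), h.R.neg_r (isb x) h.kc, h.R.symm _ (car x) _ h.kc]
    have : I2 k x.1 ≤ 0 := b
    linarith [h.deg])
  rw [h.R.sub_l (isb x) h.R.cnb (car x), h.ax.I2_cn h.ff t x.2.2] at s
  have a' : I2 k x.1 ≤ I2 x.1 x.1 := a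
  have p : 0 < h0 x.1 := by
    have : (0 : ℝ) < h0 x.1 := by push_cast at s; linarith
    exact_mod_cast this
  have := Module.nontrivial_of_finrank_pos p
  obtain ⟨⟨u, m⟩, n⟩ := exists_ne (0 : H0 x.1)
  have u0 : u ≠ 0 := fun e => n (Subtype.ext e)
  exact ⟨u, u0, ((mem_H0.1 m).resolve_left u0).trans_eq (add_comm _ _)⟩

theorem neg1 {x : h.lt} (a : h.B x x = -1) (b : h.B h.κ x = -1) :
    ∃ u P, Lin X k P ∧ u ≠ 0 ∧ x + h.d u = h.c P := by
  obtain ⟨u, u0, e⟩ := h.rr (b.trans a.symm).le (by rw [b]; norm_num)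
  obtain ⟨P, l, q⟩ := h.deg1 e (by simpa using b)
  exact ⟨u, P, l, u0, q⟩

theorem neg2 {x : h.lt} (a : h.B x x = -2) (b : h.B h.κ x = -2) :
    ∃ u P Q, Lin X k P ∧ Lin X k Q ∧ x + h.d u = h.c P + h.c Q := by
  obtain ⟨u, -, e⟩ := h.rr (b.trans a.symm).le (by rw [b]; norm_num)
  rcases h.deg2 e (by simpa using b) with ⟨P, o, q⟩ | ⟨P, Q, l, l', q⟩
  · obtain ⟨m, s⟩ := h.adj o
    rw [← q] at s
    simp only [map_add, AddMonoidHom.add_apply, B_d, B_d', a, b] at s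
    linarith [Nat.cast_nonneg (α := ℝ) m]
  · exact ⟨u, P, Q, l, l', q⟩

/-- conic classes are nef -/
theorem nef {x : h.lt} (a : h.B x x = 0) (b : h.B h.κ x = -2) :
    Eff x.1 ∧ ∀ P, On 1 X P → 0 ≤ h.B (h.c P) x := by
  obtain ⟨u, u0, e⟩ := h.rr (by rw [a, b]; norm_num) (by rw [b]; norm_num)
  refine ⟨eff_iff.2 ⟨_, dv_mem_Prn u, e⟩, fun P o => ?_⟩
  have s : h.B (h.c P) x = h.B (h.c P) (x + h.d u) := by simp
  have a' : h.B (x + h.d u) (x + h.d u) = 0 := by simpa using a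
  rw [s]
  rcases h.deg2 e (by simpa using b) with ⟨Q, o', q⟩ | ⟨Q, Q', l, l', q⟩
  · rw [q] at a' ⊢
    by_cases n : P = Q
    · subst n; exact a'.ge
    · exact h.meet o o' n
  · rw [q] at a' ⊢
    simp only [map_add, AddMonoidHom.add_apply, h.l_sq l, h.l_sq l', h.sym (h.c Q') (h.c Q)] at a' ⊢
    by_cases n : P = Q
    · subst n; linarith [h.l_sq l]
    by_cases n' : P = Q'
    · subst n'; linarith [h.l_sq l', h.sym (h.c P) (h.c Q)]
    · exact add_nonneg (h.meet o l.on n) (h.meet o l'.on n')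

theorem con_nn {x y : h.lt} (a : h.B x x = 0) (b : h.B h.κ x = -2) (a' : h.B y y = 0)
    (b' : h.B h.κ y = -2) : 0 ≤ h.B x y :=
  h.R.eff_nn (h.nef a b).1 (isb x) ⟨car y, fun P => by
    by_cases o : On 1 X P
    · exact h.B_c o y ▸ (h.nef a' b').2 P o
    · exact ((h.ax.det_iff h.ff h.term.smp).1 y.2.2 P o).ge⟩

/-- a line is determined by its class -/
theorem l_eq (l : On 1 X P) (o : On 1 X Q) (e : h.B (h.c P) (h.c Q) < 0) : P = Q :=
  by_contra fun n => (h.meet l o n).not_gt e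

/-- the polar divisor of a pencil without base points -/
theorem pld_eq {a b : h.lt} {z : K} (a0 : 0 ≤ a.1) (b0 : 0 ≤ b.1) (e : h.d z = a - b)
    (s : ∀ P, On 1 X P → a.1 P = 0 ∨ b.1 P = 0) (q : h.B b b = 0) : pld z = b.1 := by
  have c := pld_car z
  have o : ∀ P, On 1 X P → b.1 P = pld z P := fun P o => by
    have x : (P.ord z : ℝ) = a.1 P - b.1 P := congrFun (congrArg Subtype.val e) P
    rw [pld_apply, x]
    rcases s P o with y | y
    · rw [y, zero_sub, neg_neg, max_eq_right (show 0 ≤ b.1 P from b0 P)]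
    · rw [y, sub_zero, max_eq_left (neg_nonpos.2 (show 0 ≤ a.1 P from a0 P))]
  have j := h.ax.pj_eq h.ff h.term (h.R.isb _ c) (car b) b.2.2 o
  have n := (h.ax.pj_sq h.ff h.term c).2
  rw [j] at n
  have n' := n (q.trans_le (h.R.eff_nn (smp_pld z).eff (h.R.isb _ c) (h.R.nn_smp (smp_pld z))))
  exact h.ax.uq h.ff h.term.smp h.term.big c (car b)
    (fun P p => (h.ax.dg_congr h.ff (car b) n' P).trans (b.2.2 P p)) b.2.2 fun P p => (o P p).symm

/-- two pencils which meet once generate the field -/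
theorem gen {ι : Type} (z : ι → K) (i j : ι) (e : I2 (pld (z i)) (pld (z j)) = 1) :
    IntermediateField.adjoin ℂ (range z) = ⊤ := by
  set M := IntermediateField.adjoin ℂ (range z)
  let y : Fin 2 → M := ![⟨z i, IntermediateField.subset_adjoin _ _ ⟨i, rfl⟩⟩,
    ⟨z j, IntermediateField.subset_adjoin _ _ ⟨j, rfl⟩⟩]
  have p : (fun l => pb (inc M) (pld (y l))) = ![pld (z i), pld (z j)] := funext fun l => by
    rw [(h.ff.ok_sub M).pb_pld]
    fin_cases l <;> rfl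
  obtain ⟨m, m2, f⟩ := h.ax.ffs.sub 2 K h.ff M
  rcases m2.eq_or_lt with rfl | m2
  · have R := h.ax.rows M f
    have s := h.ax.pbk.deg 2 M K f h.ff (fun l => pld (y l)) (fun l => R.isb _ (pld_car _))
      fun l _ => pld_car _
    obtain ⟨n, t⟩ := h.ax.int.int 1 M f (pld (y 0)) (fun _ => pld (y 1)) (CarZ.int (pld_carZ _))
      (R.isb _ (pld_car _)) fun _ => pld_carZ _
    have w : (Fin.cons (pld (y 0)) fun _ => pld (y 1) : Fin 2 → BD M) = fun l => pld (y l) :=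
      funext fun l => by fin_cases l <;> rfl
    rw [w] at t
    rw [p, t] at s
    have : (Module.finrank M K : ℤ) * n = 1 := by exact_mod_cast s.symm.trans e
    exact IntermediateField.finrank_eq_one_iff_eq_top.1
      (by exact_mod_cast Int.eq_one_of_mul_eq_one_right (Nat.cast_nonneg _) this)
  · have s := h.ax.pbk.low m 2 M K (inc M) f h.ff (fun _ => rfl) (fun l => pb (inc M) (pld (y l)))
      Finset.univ (by simpa using m2) (fun l _ => (h.ff.ok_sub M).car (pld_car _))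
      fun l _ => ⟨_, pld_car _, rfl⟩
    rw [p] at s
    exact absurd (e.symm.trans s) one_ne_zero

end Sp

end Vale.Agent.P287D.Fm.S6
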