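import Vale.Agent.P287D.Fm.Lin
import Vale.Agent.P287D.Fm.Orb

/-!
# P287D, block FM: the Galois group permutes the conic classes
-/

set_option linter.unusedVariables false
set_option linter.unusedSectionVars false

open Set Equiv

noncomputable section

namespace Vale.Agent.P287D.Fm

open Hd Dp Sf

variable {K₀ K : Type} [Field K₀] [Algebra ℂ K₀] [Field K] [Algebra ℂ K] {X k g a b : BD K}
  {P Q : Pl K} {n : ℕ} {f : Fin n → BD K} {L : IntermediateField ℂ K₀} {φ : K₀ →+* K}
  {σ : K ≃+* K}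

theorem Num.trans' (h : Num (a - b)) (h' : Num (b - g)) : Num (a - g) := by simpa using h.add h'

theorem Num.symm' (h : Num (a - b)) : Num (b - a) := by simpa using h.neg

namespace Cs

variable (h : Dl X k) (s : Cs X k f)
include s

theorem G (i : Fin n) : f i ∈ h.G := h.conG (s.con i)

theorem kf (i : Fin n) : h.J k (f i) = -2 := (h.con_iff.1 (s.con i)).2.2

theorem fk (i : Fin n) : h.J (f i) k = -2 := (h.symm _ _).trans (s.kf h i)

theorem ff (i j : Fin n) : h.J (f i) (f j) = if i = j then 0 else 1 := by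
  split_ifs with e
  · exact e ▸ (h.con_iff.1 (s.con i)).2.1
  · exact (Dl.J_G (s.G h i) (s.G h j)).trans (s.one i j e)

include h

theorem inj {i j : Fin n} (e : Num (f i - f j)) : i = j := by
  have := h.J_congr e (Dl.car (s.G h j))
  rw [s.ff h, s.ff h, if_pos rfl] at this
  by_contra c
  simp [c] at this

theorem sum {c : ℝ} (h1 : c * h.J k k = 2 * n) (h2 : (n : ℝ) = 2 * c + 1) :
    Num (∑ i, f i + c • k) := by
  have a : ∀ i, ∑ j, h.J (f i) (f j) = n - 1 := fun i => by
    simp only [s.ff h, ← ite_not (i = _)]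
    rw [Finset.sum_ite, Finset.sum_const_zero, add_zero, Finset.sum_const, Finset.filter_ne,
      Finset.card_erase_of_mem (Finset.mem_univ i), Finset.card_fin, nsmul_one,
      Nat.cast_pred i.pos]
  refine h.num_of (add_mem (sum_mem fun i _ => Dl.car (s.G h i))
    (Submodule.smul_mem _ c (Dl.car h.kG))) ?_ (le_of_eq ?_)
  · simp only [map_add, map_sum, map_smul, s.kf h, smul_eq_mul]
    simp
    linarith
  · simp only [map_add, map_smul, LinearMap.add_apply, LinearMap.smul_apply, smul_eq_mul,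
      LinearMap.map_sum₂]
    simp only [map_sum, a, s.kf h, s.fk h]
    simp
    rw [h1, h2]
    ring

theorem all {c : ℝ} (h1 : c * h.J k k = 2 * n) (h2 : (n : ℝ) = 2 * c + 1) (t : Con X k g) :
    ∃ i, Num (g - f i) := by
  obtain ⟨u, v, w⟩ := h.con_iff.1 t
  by_contra e
  have a : ∀ i, 1 ≤ h.J g (f i) := fun i => by
    obtain ⟨z, hz⟩ := Dl.J_int u (s.G h i)
    have : ¬ z ≤ 0 := fun q => e ⟨i, h.num_of (Dl.car (sub_mem u (s.G h i)))
      (by rw [map_sub, w, s.kf h, sub_self]) (by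
        have : (z : ℝ) ≤ 0 := by exact_mod_cast q
        simp only [map_sub, LinearMap.sub_apply, v, s.ff h, h.symm (f i) g, hz]
        simp
        linarith)⟩
    rw [hz]
    exact_mod_cast (by omega : 1 ≤ z)
  have b := Finset.sum_le_sum (s := Finset.univ) fun i _ => a i
  have d := h.J_num (s.sum h h1 h2) (Dl.car u)
  rw [h.symm, map_add, map_sum, map_smul, h.symm g k, w, smul_eq_mul] at d
  simp at b
  linarith

end Cs

theorem exists_pi (ax : Ax) (z : Dz L φ X k) (s : Cs X k f) {c : ℝ} (h1 : c * I2 k k = 2 * n)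
    (h2 : (n : ℝ) = 2 * c + 1) : ∃ π : Gal φ →* Perm (Fin n),
      ∀ σ i, Num (pb (σ.1 : K →+* K) (f i) - f (π σ i)) := by
  have h := z.dl ax
  rw [← Dl.J_G h.kG h.kG] at h1
  choose p hp using fun (σ : Gal φ) i => s.all h h1 h2 ((s.con i).conj ax z σ.2)
  have m : ∀ σ τ i, p (σ * τ) i = p σ (p τ i) := fun σ τ i => by
    have a := (z.gf.toGF.semi σ.2).num.2 (hp τ i)
    rw [pb_sub, ← pb_mul z.gf.toGF] at a
    exact s.inj h (Num.trans' (Num.trans' (Num.symm' (hp _ i)) a) (hp σ _))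
  have o : ∀ i, p 1 i = i := fun i => s.inj h (Num.symm' (pb_one (φ := φ) (f i) ▸ hp 1 i))
  exact ⟨MonoidHom.toHomPerm ⟨⟨p, funext o⟩, fun σ τ => funext (m σ τ)⟩, hp⟩

theorem exists_pi5 {f : Fin 5 → BD K} (ax : Ax) (z : Dz L φ X k) (s : Cs X k f) (d : I2 k k = 5) :
    ∃ π : Gal φ →* Perm (Fin 5), ∀ σ i, Num (pb (σ.1 : K →+* K) (f i) - f (π σ i)) :=
  exists_pi ax z s (c := 2) (by rw [d]; norm_num) (by norm_num)

theorem exists_pi6 {f : Fin 3 → BD K} (ax : Ax) (z : Dz L φ X k) (s : Cs X k f) (d : I2 k k = 6) :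
    ∃ π : Gal φ →* Perm (Fin 3), ∀ σ i, Num (pb (σ.1 : K →+* K) (f i) - f (π σ i)) :=
  exists_pi ax z s (c := 1) (by rw [d]; norm_num) (by norm_num)

/-- conjugates of negative curves are determined by their classes -/
theorem pl_line (ax : Ax) (z : Dz L φ X k) (hσ : σ ∈ Gal φ) (o : On 1 X P) (o' : On 1 X Q)
    (e : Num (pb (σ : K →+* K) (st X P) - st X Q)) (q : dg (st X Q) Q < 0) :
    (z.gf.toGF.semi hσ).pl P = Q ∧ pb (σ : K →+* K) (st X P) = st X Q := by
  rw [ax.pb_st z.ff z.gf.toGF z.toMd hσ o] at e ⊢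
  have := ax.eq_of_num z.ff z.gf.toGF z.toMd o' ((ax.on_pl z.ff z.gf.toGF z.toMd hσ P).2 o) q e
  exact ⟨this, by rw [this]⟩

end Vale.Agent.P287D.Fm
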