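import Vale.Agent.P287D.Hd.St
import Vale.Agent.P287D.Dp.St

/-!
# P287D, block FM: field models of the generic fibre (statements)
-/

set_option linter.unusedVariables false

open Set Equiv
open scoped IntermediateField

noncomputable section

namespace Vale.Agent.P287D.Fm

open Hd

section defs

variable {K K' : Type} [Field K] [Algebra ℂ K] [Field K'] [Algebra ℂ K']

/-- the places above `O` -/
def Abv (φ : K →+* K') (O : Set (Pl K)) : Set (Pl K') := {P | ∃ Q ∈ O, Lies φ P Q}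

/-- the places which are trivial on the line of `z` belong to `O` -/
def UpV (O : Set (Pl K')) (z : K') : Prop := ∀ P : Pl K', (∀ a ∈ ℂ⟮z⟯, a ∈ P.ring) → P ∈ O

/-- two different primes of `O` over `z = 0`, both fixed by `N` -/
def TwoV (N : Set (K' ≃+* K')) (O : Set (Pl K')) (z : K') : Prop :=
  ∃ P₁ ∈ O, ∃ P₂ ∈ O, P₁ ≠ P₂ ∧ P₁.ord z = 1 ∧ P₂.ord z = 1 ∧
    ∀ σ ∈ N, Lies (σ : K' →+* K') P₁ P₁

/-- the kernel of an action of the Galois group -/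
def Kr {φ : K →+* K'} {Q : Type} [Group Q] (π : Gal φ →* Q) : Set (K' ≃+* K') :=
  {σ | ∃ h : σ ∈ Gal φ, π ⟨σ, h⟩ = 1}

/-- five points on the generic fibre -/
structure V5 (φ : K →+* K') (y : Perm (Fin 5) → K') (π : Gal φ →* Perm (Fin 5)) : Prop where
  cr : CR y
  eqv : ∀ σ ρ, σ.1 (y ρ) = y (π σ * ρ)
  gen : IntermediateField.adjoin ℂ (range y) = ⊤
  fai : ∀ g, (∀ ρ, y (g * ρ) = y ρ) → g = 1

/-- the torus on the generic fibre -/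
structure V6 (φ : K →+* K') (z : Fin 3 → K') (π : Gal φ →* Perm (Fin 3) × ℤˣ) : Prop where
  ne : ∀ i, z i ≠ 0
  one : z 0 * z 1 * z 2 = 1
  gen : IntermediateField.adjoin ℂ (range z) = ⊤
  eqv : ∀ σ i, ∃ c : ℂ, σ.1 (z i) = algebraMap ℂ K' c * z ((π σ).1 i) ^ ((π σ).2 : ℤ)
  fai : ∀ σ, (∀ i, σ.1 (z i) = z i) → π σ = 1

/-- `T` is the splitting of the generic fibre which belongs to the subgroup `N` -/
structure Dsd (L : IntermediateField ℂ K) (φ : K →+* K') (N : Set (K' ≃+* K')) (T : Tow L K)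
    (ι : T.F →+* K') : Prop where
  comp : ∀ a : K, ι (algebraMap K T.F a) = φ a
  cst : ∀ x : K', (∃ c : T.J, ι (algebraMap T.J T.F c) = x) ↔
    x ∈ range (algebraMap ℂ K') ∧ ∀ σ ∈ N, σ x = x
  gal : ∀ σ, σ ∈ Gal ι ↔ σ ∈ N
  res : ∀ σ ∈ Gal φ, ∃ τ : T.F ≃ₐ[K] T.F, ∀ x, ι (τ x) = σ (ι x)
  lift : ∀ τ : T.F ≃ₐ[K] T.F, ∃ σ ∈ Gal φ, ∀ x, ι (τ x) = σ (ι x)
  gf : GFd 2 2 (IsScalarTower.toAlgHom ℂ T.J T.F).fieldRange ι

end defs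

/-- a statement for all generic fibres of fourfolds over surfaces -/
def For22 (P : ∀ (K K' : Type) [Field K] [Algebra ℂ K] [Field K'] [Algebra ℂ K'],
    IntermediateField ℂ K → (K →+* K') → Prop) : Prop :=
  ∀ (K K' : Type) [Field K] [Algebra ℂ K] [Field K'] [Algebra ℂ K']
    (L : IntermediateField ℂ K) (φ : K →+* K'), GFd 2 2 L φ → P K K' L φ

/-- **DS**: the splitting field of a finite action of the Galois group -/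
def DS : Prop := For22 fun K K' _ _ _ _ L φ => ∀ (Q : Type) [Group Q] [Finite Q]
  (π : Gal φ →* Q), Nat.card Q ≤ 120 →
  (∃ s : Finset K', ∀ σ : Gal φ, (∀ x ∈ s, σ.1 x = x) → π σ = 1) →
    ∃ (T : Tow L K) (ι : T.F →+* K'), Dsd L φ (Kr π) T ι

/-- **DT**: the type descends -/
def DT : Prop := For22 fun K K' _ _ _ _ L φ => ∀ (S : Cls) (d : ℕ), SCl d S →
  ∀ N H (T : Tow L K) (ι : T.F →+* K'), Dsd L φ N T ι → N ⊆ H → STyp S L φ H → T.Typ S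

/-- **DU**: places descend -/
def DU : Prop := For22 fun K K' _ _ _ _ L φ => ∀ N (T : Tow L K) (ι : T.F →+* K'),
  Dsd L φ N T ι → ∀ (O : Set (Pl K)) (z : T.F),
    (UpV (Abv φ O) (ι z) → T.Up O z) ∧ (TwoV N (Abv φ O) (ι z) → T.Two O z)

/-- **D5**: five points descend -/
def D5 : Prop := For22 fun K K' _ _ _ _ L φ => ∀ y π, V5 φ y π →
  ∀ (T : Tow L K) (ι : T.F →+* K'), Dsd L φ (Kr π) T ι →
    ∃ y₀ π₀, T.Pts y₀ π₀ ∧ (∀ ρ, ι (y₀ ρ) = y ρ) ∧ range π₀ = range π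

/-- **D6**: the torus descends -/
def D6 : Prop := For22 fun K K' _ _ _ _ L φ => ∀ z π, V6 φ z π →
  ∀ (T : Tow L K) (ι : T.F →+* K'), Dsd L φ (Kr π) T ι → ∀ O : Set (Pl K),
    (∀ i, UpV (Abv φ O) (z i) ∧ TwoV (Kr π) (Abv φ O) (z i) ∧ TwoV (Kr π) (Abv φ O) (z i)⁻¹) →
      T.M6 O

/-- **GA**: the models of a del Pezzo fibration -/
def GA : Prop := ∀ (S : Cls) (d : ℕ), SCl d S → ∀ (K : Type) [Field K] [Algebra ℂ K], FF K 4 →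
  ∀ Λ B Γ : BD K, MFS 3 Λ B Γ → dim B = 2 → Pot2 S Λ B Γ →
    ∃ (K' : Type) (_ : Field K') (_ : Algebra ℂ K') (φ : K →+* K') (H : Set (K' ≃+* K')),
      GFd 2 2 (fld B) φ ∧ STyp S (fld B) φ H ∧
      ((∃ y π, V5 φ y π ∧ Kr π ⊆ H ∧
        ∀ ρ, UpV (Abv φ (Oh Λ B)) (y ρ) ∧ TwoV (Kr π) (Abv φ (Oh Λ B)) (y ρ)) ∨
      ∃ z π, V6 φ z π ∧ Kr π ⊆ H ∧ ∀ i, UpV (Abv φ (Oh Λ B)) (z i) ∧
        TwoV (Kr π) (Abv φ (Oh Λ B)) (z i) ∧ TwoV (Kr π) (Abv φ (Oh Λ B)) (z i)⁻¹)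

/-- **GB**: the model of a conic bundle -/
def GB : Prop := ∀ (S : Cls) (d : ℕ), SCl d S → ∀ (K : Type) [Field K] [Algebra ℂ K], FF K 4 →
  ∀ Λ B Γ : BD K, MFS 3 Λ B Γ → dim B = 3 → ∀ L₂, Pot3' S L₂ (fld B) →
    ∃ (K' : Type) (_ : Field K') (_ : Algebra ℂ K') (φ : K →+* K') (H : Set (K' ≃+* K')),
      GFd 2 2 L₂ φ ∧ STyp S L₂ φ H ∧ ∃ y π, V5 φ y π ∧ Kr π ⊆ H ∧ (∀ σ, π σ 4 = 4) ∧
        ∀ ρ : Perm (Fin 5), ρ 4 = 4 → UpV (Abv φ (Oh Λ B)) (y ρ) ∧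
          ∃ σ, (π σ (ρ 0) = ρ 2 ∧ π σ (ρ 1) = ρ 3) ∨ (π σ (ρ 0) = ρ 3 ∧ π σ (ρ 1) = ρ 2)

theorem V5.opn {K K' : Type} [Field K] [Algebra ℂ K] [Field K'] [Algebra ℂ K'] {φ : K →+* K'}
    {y π} (h : V5 φ y π) : ∃ s : Finset K', ∀ σ : Gal φ, (∀ x ∈ s, σ.1 x = x) → π σ = 1 := by
  classical
  exact ⟨Finset.univ.image y, fun σ e => h.fai _ fun ρ => by
    rw [← h.eqv, e _ (Finset.mem_image_of_mem _ (Finset.mem_univ _))]⟩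

theorem V6.opn {K K' : Type} [Field K] [Algebra ℂ K] [Field K'] [Algebra ℂ K'] {φ : K →+* K'}
    {z π} (h : V6 φ z π) : ∃ s : Finset K', ∀ σ : Gal φ, (∀ x ∈ s, σ.1 x = x) → π σ = 1 := by
  classical
  exact ⟨Finset.univ.image z, fun σ e => h.fai _ fun i =>
    e _ (Finset.mem_image_of_mem _ (Finset.mem_univ _))⟩

theorem card5 : Nat.card (Perm (Fin 5)) ≤ 120 := by
  rw [Nat.card_perm, Nat.card_fin]
  decide

theorem card6 : Nat.card (Perm (Fin 3) × ℤˣ) ≤ 120 := by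
  rw [Nat.card_prod, Nat.card_perm, Nat.card_fin, Nat.card_eq_fintype_card, Fintype.card_units_int]
  decide

theorem fma_of (ga : GA) (ds : DS) (dt : DT) (du : DU) (d5 : D5) (d6 : D6) : FMA := by
  intro S d hS K _ _ hK Λ B Γ h hd hp
  obtain ⟨K', _, _, φ, H, g, s, ⟨y, π, v, e, u⟩ | ⟨z, π, v, e, u⟩⟩ := ga S d hS K hK Λ B Γ h hd hp
  · obtain ⟨T, ι, t⟩ := ds K K' _ φ g _ π card5 v.opn
    obtain ⟨y₀, π₀, a, b, -⟩ := d5 K K' _ φ g y π v T ι t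
    exact ⟨T, dt K K' _ φ g S d hS _ H T ι t e s, .inl ⟨y₀, π₀, a, fun ρ =>
      ⟨(du K K' _ φ g _ T ι t _ _).1 (b ρ ▸ (u ρ).1), (du K K' _ φ g _ T ι t _ _).2
        (b ρ ▸ (u ρ).2)⟩⟩⟩
  · obtain ⟨T, ι, t⟩ := ds K K' _ φ g _ π card6 v.opn
    exact ⟨T, dt K K' _ φ g S d hS _ H T ι t e s, .inr (d6 K K' _ φ g z π v T ι t _ u)⟩

theorem fmb_of (gb : GB) (ds : DS) (dt : DT) (du : DU) (d5 : D5) : FMB := by
  intro S d hS K _ _ hK Λ B Γ h hd L₂ hp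
  obtain ⟨K', _, _, φ, H, g, s, y, π, v, e, u4, u⟩ := gb S d hS K hK Λ B Γ h hd L₂ hp
  obtain ⟨T, ι, t⟩ := ds K K' _ φ g _ π card5 v.opn
  obtain ⟨y₀, π₀, a, b, c⟩ := d5 K K' _ φ g y π v T ι t
  refine ⟨T, dt K K' _ φ g S d hS _ H T ι t e s, y₀, π₀, a, fun τ => ?_, fun ρ r =>
    ⟨(du K K' _ φ g _ T ι t _ _).1 (b ρ ▸ (u ρ r).1), ?_⟩⟩
  · obtain ⟨σ, k⟩ : π₀ τ ∈ range π := c ▸ mem_range_self τ
    exact k ▸ u4 σ
  · obtain ⟨σ, k⟩ := (u ρ r).2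
    obtain ⟨τ, l⟩ : π σ ∈ range π₀ := c ▸ mem_range_self σ
    exact ⟨τ, l ▸ k⟩

end Vale.Agent.P287D.Fm
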