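import Vale.Agent.P287D.Fm.St
import Vale.Agent.P287D.Dp.Gl
import Vale.Agent.P287D.Va.Fld

/-!
# P287D, block FM: conic classes on the generic fibre (statements)
-/

set_option linter.unusedVariables false

open Set Equiv

noncomputable section

namespace Vale.Agent.P287D.Fm

open Hd Dp Sf

section defs

variable {K K' : Type} [Field K] [Algebra ℂ K] [Field K'] [Algebra ℂ K']

/-- conic classes -/
structure Con (X k f : BD K') : Prop where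
  car : f ∈ CarZ K'
  det : Det X f
  sq : I2 f f = 0
  kf : I2 k f = -2

/-- different conic classes -/
structure Cs {n : ℕ} (X k : BD K') (f : Fin n → BD K') : Prop where
  con : ∀ i, Con X k (f i)
  one : ∀ i j, i ≠ j → I2 (f i) (f j) = 1

/-- a stable del Pezzo model of the generic fibre -/
structure Dz (L : IntermediateField ℂ K) (φ : K →+* K') (X k : BD K') : Prop
    extends Md φ X k where
  gf : GFd 2 2 L φ
  ff : FF K' 2
  amp : AmpOn X (-k)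

end defs

/-- a statement for all stable del Pezzo models -/
def ForZ (P : ∀ (K K' : Type) [Field K] [Algebra ℂ K] [Field K'] [Algebra ℂ K'],
    (K →+* K') → BD K' → BD K' → Prop) : Prop :=
  ∀ (K K' : Type) [Field K] [Algebra ℂ K] [Field K'] [Algebra ℂ K'] (L : IntermediateField ℂ K)
    (φ : K →+* K') (X k : BD K'), Dz L φ X k → P K K' φ X k

/-- **P5**: five conic classes give five points -/
def P5 : Prop := ForZ fun K K' _ _ _ _ φ X k => I2 k k = 5 → ∀ f : Fin 5 → BD K', Cs X k f →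
  ∃ y π, V5 φ y π ∧ (∀ σ i, Num (pb (σ.1 : K' →+* K') (f i) - f (π σ i))) ∧
    ∀ ρ, pld (y ρ) - f (ρ 4) ∈ Prn K' ∧ TwoV (Kr π) {P | On 1 X P} (y ρ)

/-- **P6**: three conic classes give the torus -/
def P6 : Prop := ForZ fun K K' _ _ _ _ φ X k => I2 k k = 6 → ∀ f : Fin 3 → BD K', Cs X k f →
  ∃ z π, V6 φ z π ∧ (∀ σ i, Num (pb (σ.1 : K' →+* K') (f i) - f ((π σ).1 i))) ∧
    ∀ i, pld (z i) - f i ∈ Prn K' ∧ TwoV (Kr π) {P | On 1 X P} (z i) ∧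
      TwoV (Kr π) {P | On 1 X P} (z i)⁻¹

/-- **UPA**: the places which are trivial on a pencil are curves of the model -/
def UPA : Prop := ForZ fun K K' _ _ _ _ φ X k => ∀ f z, Con X k f → pld z - f ∈ Prn K' →
  UpV {P | On 1 X P} z

/-- **ORB**: the orbit of a conic class in rank one -/
def ORB : Prop := ForZ fun K K' _ _ _ _ φ X k => Rk1 φ X k → ∀ f, Con X k f →
  (I2 k k = 5 → ∃ c : Fin 5 → BD K', Cs X k c ∧ c 0 = f) ∧
  (I2 k k = 6 → ∃ c : Fin 3 → BD K', Cs X k c ∧ c 0 = f)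

/-- **BA**: the generic fibre of a del Pezzo fibration -/
def BA : Prop := ∀ (K : Type) [Field K] [Algebra ℂ K], FF K 4 → ∀ Λ B Γ : BD K, MFS 3 Λ B Γ →
  dim B = 2 → ∀ (K' : Type) [Field K'] [Algebra ℂ K'] (φ : K →+* K'), GF (fld B) φ →
    ∃ g : K', Dz (fld B) φ (pb φ Λ) (pb φ Γ - dv g) ∧ Rk1 φ (pb φ Λ) (pb φ Γ - dv g) ∧
      {P | On 1 (pb φ Λ) P} ⊆ Abv φ (Oh Λ B)

/-- **BB**: the generic fibre of a conic bundle with a hidden quartic -/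
def BB : Prop := ∀ (K : Type) [Field K] [Algebra ℂ K], FF K 4 → ∀ Λ B Γ : BD K, MFS 3 Λ B Γ →
  dim B = 3 → ∀ L : IntermediateField ℂ K, L ≤ fld B → FF L 2 →
  ∀ (K' : Type) [Field K'] [Algebra ℂ K'] (φ : K →+* K') (X k f : BD K') (e : Fin 3 → BD K'),
    GF L φ → CB5 φ (fld B) X k f e → Dz L φ X k ∧ (∀ σ ∈ Gal φ, Fixes σ f) ∧
      ∀ z, pld z - f ∈ Prn K' → UpV (Abv φ (Oh Λ B)) z

/-- **BC**: the five classes of a conic bundle of degree five -/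
def BC : Prop := ForZ fun K K' _ _ _ _ φ X k => ∀ L₃ f e, CB5 φ L₃ X k f e →
  (∀ σ ∈ Gal φ, Fixes σ f) → ∃ c : Fin 5 → BD K', Cs X k c ∧ c 4 = f ∧
    ∀ π : Gal φ →* Perm (Fin 5), (∀ σ i, Num (pb (σ.1 : K' →+* K') (c i) - c (π σ i))) →
      Kr π ⊆ stQ φ f e ∧ (∀ σ, π σ 4 = 4) ∧ ∀ ρ : Perm (Fin 5), ρ 4 = 4 →
        ∃ σ, (π σ (ρ 0) = ρ 2 ∧ π σ (ρ 1) = ρ 3) ∨ (π σ (ρ 0) = ρ 3 ∧ π σ (ρ 1) = ρ 2)

section glue

variable {K' : Type} [Field K'] [Algebra ℂ K'] {O O' : Set (Pl K')} {N : Set (K' ≃+* K')} {z : K'}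

theorem UpV.mono (h : UpV O z) (e : O ⊆ O') : UpV O' z := fun P p => e (h P p)

theorem TwoV.mono (h : TwoV N O z) (e : O ⊆ O') : TwoV N O' z :=
  let ⟨P, a, Q, b, c⟩ := h
  ⟨P, e a, Q, e b, c⟩

end glue

theorem ga_of (ax : Ax) (p5 : P5) (p6 : P6) (upa : UPA) (orb : ORB) (ba : BA) : GA := by
  rintro S d hS K _ _ hK Λ B Γ h hd ⟨K', _, _, φ, f, g, kk, c, e, s, kf, t⟩
  obtain ⟨a, z, r, o⟩ := ba K hK Λ B Γ h hd K' φ g
  have R := ax.rows K' z.ff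
  have kc := ax.kC z.ff z.term
  have p : pb φ Γ - (pb φ Γ - dv a) ∈ Prn K' := by simpa using dv_mem_Prn a
  have gc : pb φ Γ ∈ Car K' := by simpa using add_mem kc (Prn_le_Car p)
  have q : I2 (pb φ Γ) (pb φ Γ) = I2 (pb φ Γ - dv a) (pb φ Γ - dv a) := by
    rw [R.congr_l (R.isb _ kc) p gc, R.symm _ kc _ gc, R.congr_l (R.isb _ kc) p kc]
  have n : Con (pb φ Λ) (pb φ Γ - dv a) f := ⟨c, (ax.det_of z.ff z.term e).2, s,
    (R.congr_l (R.isb _ kc) p (CarZ.car c)).symm.trans kf⟩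
  refine ⟨K', _, _, φ, _, z.gf, t, ?_⟩
  rcases kk with kk | kk
  · obtain ⟨b, u, rfl⟩ := (orb K K' _ φ _ _ z r f n).1 (q ▸ kk)
    obtain ⟨y, π, v, w, x⟩ := p5 K K' _ φ _ _ z (q ▸ kk) b u
    refine .inl ⟨y, π, v, ?_, fun ρ => ⟨(upa K K' _ φ _ _ z _ _ (u.con _) (x ρ).1).mono o,
      (x ρ).2.mono o⟩⟩
    rintro σ ⟨m, l⟩
    exact ⟨m, by simpa [l, Fixes] using w ⟨σ, m⟩ 0⟩
  · obtain ⟨b, u, rfl⟩ := (orb K K' _ φ _ _ z r f n).2 (q ▸ kk)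
    obtain ⟨y, π, v, w, x⟩ := p6 K K' _ φ _ _ z (q ▸ kk) b u
    refine .inr ⟨y, π, v, ?_, fun i => ⟨(upa K K' _ φ _ _ z _ _ (u.con _) (x i).1).mono o,
      (x i).2.1.mono o, (x i).2.2.mono o⟩⟩
    rintro σ ⟨m, l⟩
    exact ⟨m, by simpa [l, Fixes] using w ⟨σ, m⟩ 0⟩

theorem gb_of (p5 : P5) (bb : BB) (bc : BC) : GB := by
  rintro S d hS K _ _ hK Λ B Γ h hd L ⟨le, -, hL, K', _, _, φ, X, k, f, e, g, c, t⟩
  obtain ⟨z, x, u⟩ := bb K hK Λ B Γ h hd L le hL K' φ X k f e g c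
  obtain ⟨b, s, rfl, w⟩ := bc K K' L φ X k z _ f e c x
  obtain ⟨y, π, v, p, q⟩ := p5 K K' L φ X k z c.deg b s
  obtain ⟨w1, w2, w3⟩ := w π p
  exact ⟨K', _, _, φ, _, z.gf, t, y, π, v, w1, w2, fun ρ r => ⟨u _ (r ▸ (q ρ).1), w3 ρ r⟩⟩

end Vale.Agent.P287D.Fm
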