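import Vale.Agent.P287D.Fm.M5
import Vale.Agent.P287D.Fm.H6
import Vale.Agent.P287D.Fm.Ba
import Vale.Agent.P287D.Fm.Bb
import Vale.Agent.P287D.Fm.Bc
import Vale.Agent.P287D.Fm.Dn
import Vale.Agent.P287D.Fm.Ds
import Vale.Agent.P287D.Dp.Ax

/-!
# P287D, block FM: assembly
-/

namespace Vale.Agent.P287D.Fm

theorem fmb : Hd.FMB := fmb_of (gb_of (M5.p5 Dp.ax) (bb Dp.ax) (bc Dp.ax)) ds dt du d5

theorem fma : Hd.FMA :=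
  fma_of (ga_of Dp.ax (M5.p5 Dp.ax) (H6.p6 Dp.ax) (upa Dp.ax) (orb Dp.ax) (ba Dp.ax)) ds dt du d5 d6

end Vale.Agent.P287D.Fm
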